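import Vale.Agent.P122.AN.Defs
import Mathlib.Analysis.Fourier.Convolution

/-! # P076 / H21 : planar l² L⁶ decoupling (helper21), part A: definitions, rescaling, overlap count

Li's bilinear proof, in the form: a fixed measure `μ` on `E3` that has orthogonality up to overlaps modulo a set `Γ`,
pieces `𝓕⁻ (g k)` with `g k` supported in `|α - x k| ≤ C δ`, `|β + α² / 2| ≤ C δ²`, `α`, `β` affine. The class is closed under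
parabolic rescaling by a mere change of `α`, `β`. -/

open MeasureTheory Complex Set Vale.Agent.P122.C2 Vale.Agent.P122.AN
open scoped ENNReal NNReal FourierTransform Convolution

set_option linter.all false

namespace Vale.Agent.P076.H21

/-- orthogonality up to overlaps modulo `Γ` -/
def Ort (C : ℝ≥0∞) (μ : Measure E3) (Γ : E3 → Prop) : Prop :=
  ∀ (ι : Type) (I : Finset ι) (g : ι → E3 → ℂ) (m : ℕ), (∀ k ∈ I, Integrable (g k)) →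
    (∀ k ∈ I, ∀ J ⊆ I, (∀ l ∈ J, ∃ ξ η, g k ξ ≠ 0 ∧ g l η ≠ 0 ∧ Γ (ξ - η)) → J.card ≤ m) →
    ∫⁻ z, ‖∑ k ∈ I, 𝓕⁻ (g k) z‖ₑ ^ 2 ∂μ ≤ C * m * ∑ k ∈ I, ∫⁻ z, ‖𝓕⁻ (g k) z‖ₑ ^ 2 ∂μ

/-- pieces near a parabola -/
structure Par {ι : Type} (Γ : E3 → Prop) (C1 : ℝ) (C2 : ℕ) (δ : ℝ) (a b : E3 →ₗ[ℝ] ℝ) (a0 b0 : ℝ) (S : Finset ι)
    (x : ι → ℝ) (g : ι → E3 → ℂ) : Prop where
  dual : ∀ ζ, Γ ζ → |a ζ| + |b ζ| ≤ C1 * δ ^ 2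
  int : ∀ k ∈ S, Integrable (g k)
  pos : ∀ k ∈ S, 0 ≤ x k ∧ x k < 1
  cnt : ∀ t : ℝ, (S.filter (fun k => t ≤ x k ∧ x k < t + δ)).card ≤ C2
  loc : ∀ k ∈ S, ∀ ξ, g k ξ ≠ 0 → |a ξ + a0 - x k| ≤ C1 * δ ∧ |b ξ + b0 + (a ξ + a0) ^ 2 / 2| ≤ C1 * δ ^ 2

variable {ι : Type} {Γ : E3 → Prop} {C1 : ℝ} {C2 : ℕ} {δ : ℝ} {a b : E3 →ₗ[ℝ] ℝ} {a0 b0 : ℝ} {S : Finset ι}
  {x : ι → ℝ} {g : ι → E3 → ℂ}

lemma Par.sub (h : Par Γ C1 C2 δ a b a0 b0 S x g) {S' : Finset ι} (hS : S' ⊆ S) : Par Γ C1 C2 δ a b a0 b0 S' x g :=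
  ⟨h.dual, fun k hk => h.int k (hS hk), fun k hk => h.pos k (hS hk),
    fun t => (Finset.card_le_card (Finset.filter_subset_filter _ hS)).trans (h.cnt t), fun k hk => h.loc k (hS hk)⟩

lemma Par.resc (h : Par Γ C1 C2 δ a b a0 b0 S x g) {u σ : ℝ} (hσ : 0 < σ) (hu : 0 ≤ u) (hu1 : u + σ ≤ 1)
    (hx : ∀ k ∈ S, u ≤ x k ∧ x k < u + σ) :
    Par Γ C1 C2 (δ / σ) (σ⁻¹ • a) ((σ ^ 2)⁻¹ • (b + u • a)) ((a0 - u) / σ) ((b0 + u * a0 - u ^ 2 / 2) / σ ^ 2) S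
      (fun k => (x k - u) / σ) g := by
  refine ⟨?_, h.int, ?_, ?_, ?_⟩
  · intro ζ hζ
    have h0 := h.dual ζ hζ
    simp only [LinearMap.smul_apply, LinearMap.add_apply, smul_eq_mul]
    rw [abs_mul, abs_mul, abs_of_pos (inv_pos.2 hσ), abs_of_pos (inv_pos.2 (pow_pos hσ 2))]
    have h1 : |b ζ + u * a ζ| ≤ |b ζ| + u * |a ζ| := by
      calc |b ζ + u * a ζ| ≤ |b ζ| + |u * a ζ| := abs_add_le _ _
        _ = |b ζ| + u * |a ζ| := by rw [abs_mul, abs_of_nonneg hu]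
    have h2 : σ⁻¹ * |a ζ| = (σ ^ 2)⁻¹ * (σ * |a ζ|) := by field_simp
    rw [h2, ← mul_add, div_pow, ← mul_div_assoc, inv_mul_eq_div]
    apply div_le_div_of_nonneg_right _ (by positivity)
    nlinarith [abs_nonneg (a ζ), abs_nonneg (b ζ)]
  · intro k hk
    obtain ⟨h1, h2⟩ := hx k hk
    constructor
    · apply div_nonneg (by linarith) hσ.le
    · rw [div_lt_one hσ]; linarith
  · intro t
    refine le_trans (Finset.card_le_card ?_) (h.cnt (u + σ * t))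
    intro k hk
    rw [Finset.mem_filter] at hk ⊢
    obtain ⟨hk, h1, h2⟩ := hk
    refine ⟨hk, ?_, ?_⟩
    · rw [le_div_iff₀ hσ] at h1; linarith
    · have h3 : (x k - u) / σ * σ < (t + δ / σ) * σ := by
        exact mul_lt_mul_of_pos_right h2 hσ
      rw [div_mul_cancel₀ _ hσ.ne', add_mul, div_mul_cancel₀ _ hσ.ne'] at h3
      linarith
  · intro k hk ξ hξ
    obtain ⟨h1, h2⟩ := h.loc k hk ξ hξ
    simp only [LinearMap.smul_apply, LinearMap.add_apply, smul_eq_mul]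
    constructor
    · have : σ⁻¹ * a ξ + (a0 - u) / σ - (x k - u) / σ = (a ξ + a0 - x k) / σ := by field_simp; ring
      rw [this, abs_div, abs_of_pos hσ, mul_div_assoc']
      exact div_le_div_of_nonneg_right h1 hσ.le
    · have : (σ ^ 2)⁻¹ * (b ξ + u * a ξ) + (b0 + u * a0 - u ^ 2 / 2) / σ ^ 2 + (σ⁻¹ * a ξ + (a0 - u) / σ) ^ 2 / 2
          = (b ξ + b0 + (a ξ + a0) ^ 2 / 2) / σ ^ 2 := by field_simp; ring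
      rw [this, abs_div, abs_of_pos (pow_pos hσ 2), div_pow, mul_div_assoc']
      exact div_le_div_of_nonneg_right h2 (by positivity)

lemma keyA (A0 A1 A2 A0' A1' A2' B0 B1 B2 B0' B1' B2' a0 b0 u e e' f F : ℝ)
    (h0 : |B0 + b0 + (A0 + a0) ^ 2 / 2| ≤ e) (h1 : |B1 + b0 + (A1 + a0) ^ 2 / 2| ≤ e) (h2 : |B2 + b0 + (A2 + a0) ^ 2 / 2| ≤ e)
    (h0' : |B0' + b0 + (A0' + a0) ^ 2 / 2| ≤ e) (h1' : |B1' + b0 + (A1' + a0) ^ 2 / 2| ≤ e)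
    (h2' : |B2' + b0 + (A2' + a0) ^ 2 / 2| ≤ e)
    (hl : |B0 + B1 + B2 - (B0' + B1' + B2') + u * (A0 + A1 + A2 - (A0' + A1' + A2'))| ≤ e)
    (s1 : (A1 + a0 - u) ^ 2 ≤ f) (s2 : (A2 + a0 - u) ^ 2 ≤ f) (s1' : (A1' + a0 - u) ^ 2 ≤ f) (s2' : (A2' + a0 - u) ^ 2 ≤ f)
    (he : e ≤ e') (hF : F = 14 * e' + 4 * f) : |(A0 + a0 - u) ^ 2 - (A0' + a0 - u) ^ 2| ≤ F := by
  have n1 := sq_nonneg (A1 + a0 - u)
  have n2 := sq_nonneg (A2 + a0 - u)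
  have n3 := sq_nonneg (A1' + a0 - u)
  have n4 := sq_nonneg (A2' + a0 - u)
  rw [abs_le] at *
  constructor <;> linarith [h0.1, h1.1, h2.1, h0'.1, h1'.1, h2'.1, hl.1, h0.2, h1.2, h2.2, h0'.2, h1'.2, h2'.2, hl.2]

/-- the overlap computation -/
lemma ovl (h : Par Γ C1 C2 δ a b a0 b0 S x g) {ν τ : ℝ} (hC1 : 0 ≤ C1) (hδ : 0 < δ) (hν : 0 < ν) (hδν : 2 * C1 * δ ≤ ν)
    (hτ : 0 < τ) (hτ1 : δ ≤ τ ^ 2) (hτ2 : τ ≤ 1) {u : ℝ} (hu : 0 ≤ u) (hu1 : u ≤ 1) {S2 : Finset ι}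
    (hS2 : ∀ l ∈ S2, |x l - u| ≤ τ) (hS2' : S2 ⊆ S) {k k' : ι} (hk : k ∈ S) (hk' : k' ∈ S)
    (hsep : (u + ν ≤ x k ∧ u + ν ≤ x k') ∨ (x k + ν ≤ u ∧ x k' + ν ≤ u))
    {ξ0 ξ1 ξ2 η0 η1 η2 : E3} (h0 : g k ξ0 ≠ 0) (h0' : g k' η0 ≠ 0) {l1 l2 l1' l2' : ι} (hl1 : l1 ∈ S2) (hl2 : l2 ∈ S2)
    (hl1' : l1' ∈ S2) (hl2' : l2' ∈ S2) (h1 : g l1 ξ1 ≠ 0) (h2 : g l2 ξ2 ≠ 0) (h1' : g l1' η1 ≠ 0) (h2' : g l2' η2 ≠ 0)
    (hΓ : Γ ((ξ0 + ξ1 + ξ2) - (η0 + η1 + η2))) :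
    |x k - x k'| ≤ (14 * C1 + 4 * (1 + C1) ^ 2 + 2 * C1) * (τ ^ 2 / ν) := by
  obtain ⟨A0, B0⟩ := h.loc k hk ξ0 h0
  obtain ⟨A0', B0'⟩ := h.loc k' hk' η0 h0'
  obtain ⟨A1, B1⟩ := h.loc l1 (hS2' hl1) ξ1 h1
  obtain ⟨A2, B2⟩ := h.loc l2 (hS2' hl2) ξ2 h2
  obtain ⟨A1', B1'⟩ := h.loc l1' (hS2' hl1') η1 h1'
  obtain ⟨A2', B2'⟩ := h.loc l2' (hS2' hl2') η2 h2'
  have hd := h.dual _ hΓ
  have hτδ : δ ≤ τ := hτ1.trans (by nlinarith)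
  have hδ2 : δ ^ 2 ≤ τ ^ 2 := pow_le_pow_left₀ hδ.le hτδ 2
  -- small ones
  have sm : ∀ (l : ι) (ξ : E3), l ∈ S2 → |a ξ + a0 - x l| ≤ C1 * δ → (a ξ + a0 - u) ^ 2 ≤ (1 + C1) ^ 2 * τ ^ 2 := by
    intro l ξ hl hA
    have := hS2 l hl
    have h3 : |a ξ + a0 - u| ≤ (1 + C1) * τ := by
      calc |a ξ + a0 - u| = |(a ξ + a0 - x l) + (x l - u)| := by ring_nf
        _ ≤ |a ξ + a0 - x l| + |x l - u| := abs_add_le _ _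
        _ ≤ C1 * δ + τ := add_le_add hA this
        _ ≤ (1 + C1) * τ := by nlinarith
    calc (a ξ + a0 - u) ^ 2 = |a ξ + a0 - u| ^ 2 := (sq_abs _).symm
      _ ≤ ((1 + C1) * τ) ^ 2 := pow_le_pow_left₀ (abs_nonneg _) h3 2
      _ = _ := by ring
  have s1 := sm l1 ξ1 hl1 A1
  have s2 := sm l2 ξ2 hl2 A2
  have s1' := sm l1' η1 hl1' A1'
  have s2' := sm l2' η2 hl2' A2'
  have hlin : |b ((ξ0 + ξ1 + ξ2) - (η0 + η1 + η2)) + u * a ((ξ0 + ξ1 + ξ2) - (η0 + η1 + η2))| ≤ C1 * δ ^ 2 := by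
    refine le_trans (abs_add_le _ _) ?_
    rw [abs_mul, abs_of_nonneg hu]
    nlinarith [abs_nonneg (a ((ξ0 + ξ1 + ξ2) - (η0 + η1 + η2)))]
  simp only [map_sub, map_add] at hlin
  have key : |(a ξ0 + a0 - u) ^ 2 - (a η0 + a0 - u) ^ 2| ≤ (14 * C1 + 4 * (1 + C1) ^ 2) * τ ^ 2 := by
    have hc : C1 * δ ^ 2 ≤ C1 * τ ^ 2 := mul_le_mul_of_nonneg_left hδ2 hC1
    exact keyA (a ξ0) (a ξ1) (a ξ2) (a η0) (a η1) (a η2) (b ξ0) (b ξ1) (b ξ2) (b η0) (b η1) (b η2) a0 b0 u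
      (C1 * δ ^ 2) (C1 * τ ^ 2) ((1 + C1) ^ 2 * τ ^ 2) _ B0 B1 B2 B0' B1' B2' hlin s1 s2 s1' s2' hc (by ring)
  -- the sum is large
  have big : ν ≤ |(a ξ0 + a0 - u) + (a η0 + a0 - u)| := by
    rcases hsep with ⟨q1, q2⟩ | ⟨q1, q2⟩
    · rw [abs_le] at A0 A0'
      refine le_trans ?_ (le_abs_self _)
      linarith [A0.1, A0'.1]
    · rw [abs_le] at A0 A0'
      refine le_trans ?_ (neg_le_abs _)
      linarith [A0.2, A0'.2]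
  have diff : |a ξ0 - a η0| ≤ (14 * C1 + 4 * (1 + C1) ^ 2) * (τ ^ 2 / ν) := by
    have e : (a ξ0 + a0 - u) ^ 2 - (a η0 + a0 - u) ^ 2 = ((a ξ0 + a0 - u) + (a η0 + a0 - u)) * (a ξ0 - a η0) := by ring
    rw [e, abs_mul] at key
    rw [← mul_div_assoc, le_div_iff₀ hν]
    calc |a ξ0 - a η0| * ν ≤ |a ξ0 - a η0| * |(a ξ0 + a0 - u) + (a η0 + a0 - u)| :=
          mul_le_mul_of_nonneg_left big (abs_nonneg _)
      _ ≤ _ := by rw [mul_comm]; exact key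
  have hfin : C1 * δ ≤ C1 * (τ ^ 2 / ν) := by
    apply mul_le_mul_of_nonneg_left _ hC1
    rw [le_div_iff₀ hν]
    have hν1 : ν ≤ 1 := by
      rcases hsep with ⟨q1, q2⟩ | ⟨q1, q2⟩
      · have := (h.pos k hk).2; linarith
      · have := (h.pos k hk).1; linarith
    calc δ * ν ≤ δ * 1 := mul_le_mul_of_nonneg_left hν1 hδ.le
      _ ≤ τ ^ 2 := by rw [mul_one]; exact hτ1
  calc |x k - x k'| = |-(a ξ0 + a0 - x k) + (a ξ0 - a η0) + (a η0 + a0 - x k')| := by ring_nf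
    _ ≤ |-(a ξ0 + a0 - x k) + (a ξ0 - a η0)| + |a η0 + a0 - x k'| := abs_add_le _ _
    _ ≤ |-(a ξ0 + a0 - x k)| + |a ξ0 - a η0| + |a η0 + a0 - x k'| := by gcongr; exact abs_add_le _ _
    _ = |a ξ0 + a0 - x k| + |a ξ0 - a η0| + |a η0 + a0 - x k'| := by rw [abs_neg]
    _ ≤ C1 * δ + (14 * C1 + 4 * (1 + C1) ^ 2) * (τ ^ 2 / ν) + C1 * δ := add_le_add (add_le_add A0 diff) A0'
    _ ≤ C1 * (τ ^ 2 / ν) + (14 * C1 + 4 * (1 + C1) ^ 2) * (τ ^ 2 / ν) + C1 * (τ ^ 2 / ν) := by linarith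
    _ = _ := by ring

end Vale.Agent.P076.H21
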