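import Vale.Agent.P076.H21.LowE
import Vale.Agent.P076.H281.SlEn
import Vale.Agent.P076.H381.TT2
import Vale.Agent.P076.H381.Low2
import Vale.Agent.P076.H819.Blk

/-! # P076, H21: `StLOW1` and `StLOW2` (normally resolved energy count and transversal gain) -/

set_option linter.all false

open MeasureTheory Complex FourierTransform Vale.Agent.P122.C2 Vale.Agent.P076.ASM Vale.Agent.P076.H23
open scoped ENNReal

namespace Vale.Agent.P076.H21

open Vale.Agent.P076.X (ex sol ms Good W)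
open Vale.Agent.P076.H523
open Vale.Agent.P076.H281 (v2 int2 ph evo_ph ph_meas ph_mul_int ex_norm ex_cont v2_meas evo_cont mp_me2 me2 me2_apply)

theorem stTT : StTT := by
  obtain ⟨K, hK, h⟩ := Vale.Agent.P076.H381.tt2
  exact ⟨K, hK, fun ι s T w D c om y t hT hw hTw hc hs hom hD hk =>
    h s om y t w T D c hc hs hw hT hTw hom hD hk⟩

theorem stCO : StCO := by
  obtain ⟨C, hC, h⟩ := Vale.Agent.P076.H819.co
  exact ⟨C, hC, fun ι P x t T b c hT hb hP k => h P x t T b c hT hb hP k⟩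

theorem stTR : StTR := by
  obtain ⟨C, hC, h⟩ := Vale.Agent.P076.H819.tr
  exact ⟨C, hC, fun ι P x t T b c b' c' hT hb hb' hne hP => h P x t T b c b' c' hT hb hb' hne hP⟩

/-- profile on `ℝ × ℝ` -/
noncomputable def gg (G : E 2 → ℂ) (q : ℝ × ℝ) : ℂ := G (v2 q.1 q.2)

theorem gg_S2 {w : ℝ} {G : E 2 → ℂ} (h : Str w G) : S2 w (gg G) where
  meas := h.meas.comp v2_meas
  bdd := by
    obtain ⟨b, hb⟩ := h.bdd
    exact ⟨b, fun q => hb _⟩
  s0 := fun q hq => by simpa using h.s0 _ hq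
  s1 := fun q hq => by simpa using h.s1 _ hq

theorem evo_eq {w : ℝ} {G : E 2 → ℂ} (h : Str w G) (x y t : ℝ) :
    evo G (v2 x y) t 0 = sol (prof (gg G) y t) x t := by
  rw [evo_ph]
  have hi := ph_mul_int h x t (f := fun ζ => ex (y * ζ)) (ex_cont.comp (by fun_prop)).measurable (M := 1)
    (fun ζ _ => (ex_norm _).le)
  rw [Measure.volume_eq_prod, integral_prod _ (by rwa [Measure.volume_eq_prod] at hi)]
  unfold sol prof sol
  apply integral_congr_ae
  refine Filter.Eventually.of_forall fun ξ => ?_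
  simp only
  rw [← integral_mul_const]
  apply integral_congr_ae
  refine Filter.Eventually.of_forall fun ζ => ?_
  unfold Vale.Agent.P076.H281.ph gg
  simp only
  have e1 : ex (y * ζ - t * ζ ^ 2) = ex (-(t * ζ ^ 2)) * ex (y * ζ) := by
    rw [← Vale.Agent.P076.X.ex_add]; congr 1; ring
  rw [e1]
  ring

theorem eG_nonneg {T w : ℝ} (hT : 0 < T) (hw : 0 < w) (G : E 2 → ℂ) (x : E 2) (t : ℝ) : 0 ≤ eG T w G x t := by
  unfold eG
  refine mul_nonneg hw.le (integral_nonneg fun p => ?_)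
  have := W_nn hT (x 0 - p 0)
  have h2 : 0 ≤ w * |x 1 - p 1| := by positivity
  positivity

theorem ofReal_integral_le {α : Type*} [MeasurableSpace α] {μ : Measure α} {f : α → ℝ} (hf : ∀ a, 0 ≤ f a) :
    ENNReal.ofReal (∫ a, f a ∂μ) ≤ ∫⁻ a, ENNReal.ofReal (f a) ∂μ := by
  by_cases hi : Integrable f μ
  · rw [ofReal_integral_eq_lintegral_ofReal hi (Filter.Eventually.of_forall hf)]
  · rw [integral_undef hi]; simp

theorem eG_le {T w : ℝ} (hT : 0 < T) (hw : 0 < w) {G : E 2 → ℂ} (h : Str w G) (x : E 2) (t : ℝ) :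
    ENNReal.ofReal (eG T w G x t) ≤ EL T w (gg G) (x 0) (x 1) t := by
  unfold eG
  rw [int2, ← integral_const_mul]
  have hnn : ∀ p : ℝ × ℝ, 0 ≤ w * (((1 + w * |x 1 - (v2 p.1 p.2) 1|) ^ 4)⁻¹ * W T (x 0 - (v2 p.1 p.2) 0) *
      ‖evo G (v2 p.1 p.2) t 0‖ ^ 2) := fun p => by
    have := W_nn hT (x 0 - (v2 p.1 p.2) 0)
    have h2 : 0 ≤ w * |x 1 - (v2 p.1 p.2) 1| := by positivity
    positivity
  refine (ofReal_integral_le hnn).trans (le_of_eq ?_)
  have hWm : Measurable (W T) := (W_cont T).measurable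
  have hkm : Measurable (kap w) := (kap_cont hw).measurable
  have hev : Measurable (fun p : ℝ × ℝ => evo G (v2 p.1 p.2) t 0) := (evo_cont h t).measurable
  have e1 : ∀ p : ℝ × ℝ, ENNReal.ofReal (w * (((1 + w * |x 1 - (v2 p.1 p.2) 1|) ^ 4)⁻¹ *
      W T (x 0 - (v2 p.1 p.2) 0) * ‖evo G (v2 p.1 p.2) t 0‖ ^ 2))
      = ENNReal.ofReal (kap w (x 1 - p.2)) * (ENNReal.ofReal (W T (x 0 - p.1)) * ‖evo G (v2 p.1 p.2) t 0‖ₑ ^ 2) := by
    intro p
    have e0 : (v2 p.1 p.2) 0 = p.1 := by simp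
    have e01 : (v2 p.1 p.2) 1 = p.2 := by simp
    rw [e0, e01, ← ofReal_norm_eq_enorm, ← ENNReal.ofReal_pow (norm_nonneg _),
      ← ENNReal.ofReal_mul (W_nn hT _), ← ENNReal.ofReal_mul (kap_nn hw _)]
    congr 1
    unfold kap
    ring
  simp_rw [e1]
  have hm0 : Measurable (fun p : ℝ × ℝ => ENNReal.ofReal (kap w (x 1 - p.2))) :=
    (hkm.comp (by fun_prop : Measurable fun p : ℝ × ℝ => x 1 - p.2)).ennreal_ofReal
  have hm1 : Measurable (fun p : ℝ × ℝ => ENNReal.ofReal (W T (x 0 - p.1))) :=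
    (hWm.comp (by fun_prop : Measurable fun p : ℝ × ℝ => x 0 - p.1)).ennreal_ofReal
  have hm : Measurable (fun p : ℝ × ℝ => ENNReal.ofReal (kap w (x 1 - p.2)) *
      (ENNReal.ofReal (W T (x 0 - p.1)) * ‖evo G (v2 p.1 p.2) t 0‖ₑ ^ 2)) :=
    hm0.mul (hm1.mul (hev.enorm.pow_const 2))
  rw [Measure.volume_eq_prod, lintegral_prod_symm _ hm.aemeasurable]
  unfold EL
  refine lintegral_congr fun y' => ?_
  simp only
  rw [lintegral_const_mul' _ _ ENNReal.ofReal_ne_top]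
  congr 1
  refine lintegral_congr fun x' => ?_
  rw [evo_eq h]

theorem mass_eq {w : ℝ} {G : E 2 → ℂ} (h : Str w G) :
    ∫⁻ q, ‖gg G q‖ₑ ^ 2 = ENNReal.ofReal (∫ η, ‖G η‖ ^ 2) := by
  have hS := gg_S2 h
  obtain ⟨b, hb⟩ := hS.bdd
  have hi : Integrable (fun q : ℝ × ℝ => ‖gg G q‖ ^ 2) := by
    refine Integrable.mono' (g := fun a => b * ‖gg G a‖) (hS.integrable.norm.const_mul _)
      (hS.meas.norm.pow_const 2).aestronglyMeasurable (Filter.Eventually.of_forall fun a => ?_)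
    rw [Real.norm_of_nonneg (by positivity), pow_two]
    exact mul_le_mul_of_nonneg_right (hb a) (norm_nonneg _)
  rw [int2]
  have e1 : ∫ p : ℝ × ℝ, ‖G (v2 p.1 p.2)‖ ^ 2 = ∫ q, ‖gg G q‖ ^ 2 := rfl
  rw [e1, ofReal_integral_eq_lintegral_ofReal hi (Filter.Eventually.of_forall fun q => by positivity)]
  refine lintegral_congr fun q => ?_
  rw [ENNReal.ofReal_pow (norm_nonneg _), ofReal_norm_eq_enorm]

theorem mass_nonneg (G : E 2 → ℂ) : 0 ≤ ∫ η, ‖G η‖ ^ 2 := integral_nonneg fun η => by positivity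

theorem blk_inj {T R : ℝ} {P : Finset Ix} {x : Ix → E 2} {t : Ix → ℝ} (h : Blk T R P x t) :
    Inj P T (fun i => x i 0) t := fun i hi j hj h1 h2 => h.one i hi j hj h1 h2

/-- **StLOW1** -/
theorem stLOW1 : StLOW1 := by
  obtain ⟨C, hC, L⟩ := low1' stTT stCO
  refine ⟨C, fun R T w G P x t hT hTR hRT hw hw1 hTw hG hP => ?_⟩
  have hT0 : 0 < T := by linarith
  have hR0 : 0 ≤ R := by linarith
  have h1 := L Ix P (fun i => x i 0) (fun i => x i 1) t R T w (gg G) hT hTR hRT hw hTw (gg_S2 hG) hP.t0 hP.tR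
    (blk_inj hP)
  rw [mass_eq hG, ← ENNReal.ofReal_mul (by positivity)] at h1
  have h2 : ENNReal.ofReal (∑ i ∈ P, eG T w G (x i) (t i))
      ≤ ENNReal.ofReal (C * Real.sqrt R / T ^ 2 * ∫ η, ‖G η‖ ^ 2) := by
    rw [ENNReal.ofReal_sum_of_nonneg fun i _ => eG_nonneg hT0 hw G (x i) (t i)]
    exact (Finset.sum_le_sum fun i _ => eG_le hT0 hw hG (x i) (t i)).trans h1
  exact (ENNReal.ofReal_le_ofReal_iff (mul_nonneg (by positivity) (mass_nonneg G))).mp h2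

/-- optimisation in the parameter -/
theorem opt {a C X Y : ℝ} (hC : 0 ≤ C) (hX : 0 ≤ X) (hY : 0 ≤ Y)
    (h : ∀ r : ℝ, 0 < r → a ≤ C * (r * X + Y / r)) : a ≤ 2 * C * Real.sqrt X * Real.sqrt Y := by
  have h1 : ∀ ε : ℝ, 0 < ε → a ≤ 2 * C * Real.sqrt (X + ε) * Real.sqrt (Y + ε) := by
    intro ε hε
    have hx : 0 < Real.sqrt (X + ε) := Real.sqrt_pos.mpr (by linarith)
    have hy : 0 < Real.sqrt (Y + ε) := Real.sqrt_pos.mpr (by linarith)
    have hx2 := Real.sq_sqrt (by linarith : 0 ≤ X + ε)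
    have hy2 := Real.sq_sqrt (by linarith : 0 ≤ Y + ε)
    set u := Real.sqrt (X + ε)
    set v := Real.sqrt (Y + ε)
    have h2 := h (v / u) (by positivity)
    have h3 : v / u * X ≤ u * v := by
      rw [div_mul_eq_mul_div, div_le_iff₀ hx]
      nlinarith
    have h4 : Y / (v / u) ≤ u * v := by
      rw [div_div_eq_mul_div, div_le_iff₀ hy]
      nlinarith
    calc a ≤ C * (v / u * X + Y / (v / u)) := h2
      _ ≤ C * (u * v + u * v) := mul_le_mul_of_nonneg_left (add_le_add h3 h4) hC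
      _ = _ := by ring
  have hcont : Continuous (fun ε : ℝ => 2 * C * Real.sqrt (X + ε) * Real.sqrt (Y + ε)) := by fun_prop
  have ht : Filter.Tendsto (fun ε : ℝ => 2 * C * Real.sqrt (X + ε) * Real.sqrt (Y + ε))
      (nhdsWithin 0 (Set.Ioi 0)) (nhds (2 * C * Real.sqrt X * Real.sqrt Y)) := by
    have := hcont.tendsto 0
    simp only [add_zero] at this
    exact this.mono_left nhdsWithin_le_nhds
  exact ge_of_tendsto ht (by
    filter_upwards [self_mem_nhdsWithin] with ε hε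
    exact h1 ε hε)

theorem mz_ne_top {w T : ℝ} {G : E 2 → ℂ} (hT : 0 < T) (h : Str w G) (x t : ℝ) : mz T (gg G) x t ≠ ⊤ := by
  have hd0 : 0 ≤ 1 / (16 * T) := by positivity
  have h1 : mz T (gg G) x t ≤ ENNReal.ofReal (1 / T) * ∫⁻ p, mu (1 / (16 * T)) (gg G) p := by
    unfold mz
    rw [← lintegral_const_mul' _ _ ENNReal.ofReal_ne_top]
    exact lintegral_mono fun p => mul_le_mul_left (ENNReal.ofReal_le_ofReal (W_le_inv hT _)) _
  refine ne_top_of_le_ne_top ?_ h1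
  rw [mass_mu (gg_S2 h) hd0, mass_eq h]
  exact ENNReal.mul_ne_top ENNReal.ofReal_ne_top (ENNReal.mul_ne_top ENNReal.ofReal_ne_top ENNReal.ofReal_ne_top)

/-- real form of the packet energy through a point (normalised) -/
noncomputable def mr (T : ℝ) (G : E 2 → ℂ) (x t : ℝ) : ℝ := T ^ 2 * (mz T (gg G) x t).toReal

theorem mr_nonneg (T : ℝ) (G : E 2 → ℂ) (x t : ℝ) : 0 ≤ mr T G x t := by unfold mr; positivity

/-- Schur inequality in Cauchy-Schwarz form -/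
theorem schur3 : ∃ K : ℝ, 0 ≤ K ∧ ∀ (R T w : ℝ) (G : E 2 → ℂ) (P : Finset Ix) (x : Ix → E 2) (t : Ix → ℝ),
    1 ≤ T → R ≤ T ^ 2 → 0 < w → T * w ^ 2 ≤ 1 → Str w G → Blk T R P x t →
    ∑ i ∈ P, eG T w G (x i) (t i) ≤ K * ((Real.sqrt T) ^ 3)⁻¹ * Real.sqrt (∫ η, ‖G η‖ ^ 2) *
      Real.sqrt (∑ i ∈ P, mr T G (x i 0) (t i)) := by
  obtain ⟨C, hC, S⟩ := schur2 stTT stCO
  refine ⟨2 * C, by positivity, fun R T w G P x t hT hRT hw hTw hG hP => ?_⟩
  have hT0 : 0 < T := by linarith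
  set M := ∫ η, ‖G η‖ ^ 2 with hM
  have hM0 : 0 ≤ M := mass_nonneg G
  set X := ∑ i ∈ P, (mz T (gg G) (x i 0) (t i)).toReal with hX
  have hX0 : 0 ≤ X := Finset.sum_nonneg fun i _ => ENNReal.toReal_nonneg
  have h1 : ∀ r : ℝ, 0 < r → ∑ i ∈ P, eG T w G (x i) (t i) ≤ C * (r * X + M / T / r) := by
    intro r hr
    have h2 := S Ix P (fun i => x i 0) (fun i => x i 1) t T w (gg G) hT hw hTw (gg_S2 hG)
      (fun i hi => by rw [abs_of_nonneg (hP.t0 i hi)]; exact (hP.tR i hi).trans hRT) (blk_inj hP) r hr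
    have h3 : ∑ i ∈ P, mz T (gg G) (x i 0) (t i) = ENNReal.ofReal X := by
      rw [hX, ENNReal.ofReal_sum_of_nonneg fun i _ => ENNReal.toReal_nonneg]
      exact Finset.sum_congr rfl fun i _ => (ENNReal.ofReal_toReal (mz_ne_top hT0 hG _ _)).symm
    rw [mass_eq hG, h3, ← ENNReal.ofReal_mul hr.le, ← ENNReal.ofReal_mul (by positivity),
      ← ENNReal.ofReal_add (by positivity) (by positivity), ← ENNReal.ofReal_mul hC.le] at h2
    have h4 : ENNReal.ofReal (∑ i ∈ P, eG T w G (x i) (t i))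
        ≤ ENNReal.ofReal (C * (r * X + 1 / (r * T) * M)) := by
      rw [ENNReal.ofReal_sum_of_nonneg fun i _ => eG_nonneg hT0 hw G (x i) (t i)]
      exact (Finset.sum_le_sum fun i _ => eG_le hT0 hw hG (x i) (t i)).trans h2
    have h5 := (ENNReal.ofReal_le_ofReal_iff (by positivity)).mp h4
    refine h5.trans (le_of_eq ?_)
    congr 2
    field_simp
  have h6 := opt hC.le hX0 (div_nonneg hM0 hT0.le) h1
  refine h6.trans (le_of_eq ?_)
  have h7 : ∑ i ∈ P, mr T G (x i 0) (t i) = T ^ 2 * X := by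
    rw [hX, Finset.mul_sum]; rfl
  rw [h7, Real.sqrt_mul (by positivity), Real.sqrt_sq hT0.le, Real.sqrt_div hM0]
  have hs : 0 < Real.sqrt T := Real.sqrt_pos.mpr hT0
  have hs2 : Real.sqrt T ^ 2 = T := Real.sq_sqrt hT0.le
  have h8 : ((Real.sqrt T) ^ 3)⁻¹ * T = (Real.sqrt T)⁻¹ := by
    nth_rewrite 2 [← hs2]
    field_simp
  calc 2 * C * Real.sqrt X * (Real.sqrt M / Real.sqrt T)
      = 2 * C * (Real.sqrt T)⁻¹ * Real.sqrt M * Real.sqrt X := by rw [div_eq_mul_inv]; ring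
    _ = 2 * C * (((Real.sqrt T) ^ 3)⁻¹ * T) * Real.sqrt M * Real.sqrt X := by rw [h8]
    _ = _ := by ring

/-- **StLOW2** -/
theorem stLOW2 : StLOW2 := by
  intro ν hν
  obtain ⟨K, hK, S⟩ := schur3
  obtain ⟨C2, hC2, TR⟩ := trans stTR stCO
  obtain ⟨C, hC, core⟩ := Vale.Agent.P076.H381.low2_core K (C2 / ν) hK (by positivity)
  refine ⟨C, fun R T w a Λ G₁ G₂ P x t hT hTR hRT hw hw1 hTw hG1 hG2 hs1 hs2 hP hΛ hbig => ?_⟩
  have hT0 : 0 < T := by linarith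
  have hR0 : 0 < R := by linarith
  have hsub : ∀ P' ⊆ P, Blk T R P' x t := fun P' hP' =>
    ⟨fun i hi => hP.t0 i (hP' hi), fun i hi => hP.tR i (hP' hi), fun i hi j hj => hP.one i (hP' hi) j (hP' hj)⟩
  refine core P (fun i => eG T w G₁ (x i) (t i)) (fun i => eG T w G₂ (x i) (t i))
    (fun i => mr T G₁ (x i 0) (t i)) (fun i => mr T G₂ (x i 0) (t i)) Λ T R _ _ hΛ hT0 hR0
    (mass_nonneg G₁) (mass_nonneg G₂) (fun i _ => mr_nonneg _ _ _ _) (fun i _ => mr_nonneg _ _ _ _)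
    (fun i hi => (hbig i hi).1) (fun i hi => (hbig i hi).2)
    (fun P' hP' => S R T w G₁ P' x t hT hRT hw hTw hG1 (hsub P' hP'))
    (fun P' hP' => S R T w G₂ P' x t hT hRT hw hTw hG2 (hsub P' hP')) ?_
  have h1 := TR Ix P (fun i => x i 0) t T w a ν (gg G₁) (gg G₂) hT hν (gg_S2 hG1) (gg_S2 hG2)
    (fun p hp => by simpa using hs1 _ hp) (fun p hp => by simpa using hs2 _ hp) hP.t0
    (fun i hi => (hP.tR i hi).trans hRT) (blk_inj hP)
  rw [mass_eq hG1, mass_eq hG2] at h1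
  have hM1 := mass_nonneg G₁
  have hM2 := mass_nonneg G₂
  have h2 : ∑ i ∈ P, mz T (gg G₁) (x i 0) (t i) * mz T (gg G₂) (x i 0) (t i)
      = ENNReal.ofReal (∑ i ∈ P, (mz T (gg G₁) (x i 0) (t i)).toReal * (mz T (gg G₂) (x i 0) (t i)).toReal) := by
    rw [ENNReal.ofReal_sum_of_nonneg fun i _ => by positivity]
    refine Finset.sum_congr rfl fun i _ => ?_
    rw [ENNReal.ofReal_mul ENNReal.toReal_nonneg, ENNReal.ofReal_toReal (mz_ne_top hT0 hG1 _ _),
      ENNReal.ofReal_toReal (mz_ne_top hT0 hG2 _ _)]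
  rw [h2, ← ENNReal.ofReal_mul hM1, ← ENNReal.ofReal_mul (by positivity)] at h1
  have h3 := (ENNReal.ofReal_le_ofReal_iff (by positivity)).mp h1
  have h4 : ∑ i ∈ P, mr T G₁ (x i 0) (t i) * mr T G₂ (x i 0) (t i)
      = T ^ 4 * ∑ i ∈ P, (mz T (gg G₁) (x i 0) (t i)).toReal * (mz T (gg G₂) (x i 0) (t i)).toReal := by
    rw [Finset.mul_sum]
    refine Finset.sum_congr rfl fun i _ => ?_
    unfold mr
    ring
  simp only
  rw [h4]
  calc T ^ 4 * ∑ i ∈ P, (mz T (gg G₁) (x i 0) (t i)).toReal * (mz T (gg G₂) (x i 0) (t i)).toReal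
      ≤ T ^ 4 * (C2 / ν / T ^ 4 * ((∫ η, ‖G₁ η‖ ^ 2) * ∫ η, ‖G₂ η‖ ^ 2)) :=
        mul_le_mul_of_nonneg_left h3 (by positivity)
    _ = _ := by field_simp

end Vale.Agent.P076.H21
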