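import Vale.Agent.P076.X.Rep
import Vale.Agent.P076.H972.Basic
import Vale.Agent.P076.H263.Wr

/-! # P076, H21: box packets in one variable

For a profile `g` and a frequency box `[a-d, a+d]` (`d = 1/(16T)`) the box coefficient at position `c`
is `bc d g a c = ∫_{|ξ-a| ≤ d} g ξ e(cξ)`.  The local energy of the solution `sol g · t` at scale `T`
at a time `|t| ≤ T²` is controlled by the box coefficients along straight lines. -/

set_option linter.all false

open MeasureTheory Complex
open Vale.Agent.P076.X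

namespace Vale.Agent.P076.H21

/-- box coefficient -/
noncomputable def bc (d : ℝ) (g : ℝ → ℂ) (a c : ℝ) : ℂ :=
  ∫ ξ in Set.Icc (a - d) (a + d), g ξ * ex (c * ξ)

/-- chirped box window -/
noncomputable def chw (d t : ℝ) (s : ℝ) : ℂ := Set.indicator (Set.Icc (-d) d) (fun s => ex (t * s ^ 2)) s

theorem chw_meas (d t : ℝ) : Measurable (chw d t) := by
  have h := measurable_ex
  unfold chw
  refine Measurable.indicator ?_ measurableSet_Icc
  fun_prop

theorem chw_norm_le (d t s : ℝ) : ‖chw d t s‖ ≤ 1 := by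
  unfold chw Set.indicator
  split_ifs
  · rw [norm_ex]
  · simp

theorem chw_integrable (d t : ℝ) : Integrable (chw d t) := by
  unfold chw
  rw [integrable_indicator_iff measurableSet_Icc]
  refine Measure.integrableOn_of_bounded (M := 1) ?_ ?_ ?_
  · rw [Real.volume_Icc]; exact ENNReal.ofReal_ne_top
  · have := continuous_ex
    have h2 : Continuous (fun s : ℝ => ex (t * s ^ 2)) := by fun_prop
    exact h2.aestronglyMeasurable
  · exact Filter.Eventually.of_forall fun s => by rw [norm_ex]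

/-- transform of the chirped window is bounded below -/
theorem chw_lower {T t x : ℝ} (hT : 0 < T) (ht : |t| ≤ T ^ 2) (hx : |x| ≤ T) :
    1 / (16 * T) ≤ ‖∫ s, chw (1 / (16 * T)) t s * ex (x * s)‖ := by
  set d := 1 / (16 * T) with hd
  have hd0 : 0 < d := by positivity
  have hTd : T * d = 1 / 16 := by rw [hd]; field_simp
  have hc := continuous_ex
  have h1 : ∫ s, chw d t s * ex (x * s) = ∫ s in Set.Icc (-d) d, ex (t * s ^ 2 + x * s) := by
    rw [← integral_indicator measurableSet_Icc]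
    congr 1
    ext s
    unfold chw Set.indicator
    split_ifs
    · exact (ex_add _ _).symm
    · simp
  rw [h1]
  have hint : IntegrableOn (fun s : ℝ => ex (t * s ^ 2 + x * s)) (Set.Icc (-d) d) := by
    apply Continuous.integrableOn_Icc
    fun_prop
  refine le_trans ?_ (Complex.re_le_norm _)
  have h2 : (∫ s in Set.Icc (-d) d, ex (t * s ^ 2 + x * s)).re
      = ∫ s in Set.Icc (-d) d, (ex (t * s ^ 2 + x * s)).re := by
    exact (integral_re hint).symm
  rw [h2]
  have h3 : ∀ s ∈ Set.Icc (-d) d, (1/2 : ℝ) ≤ (ex (t * s ^ 2 + x * s)).re := by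
    intro s hs
    have hsd : |s| ≤ d := abs_le.mpr ⟨hs.1, hs.2⟩
    rw [Vale.Agent.P076.H972.ex_re]
    have h4 : |t * s ^ 2 + x * s| ≤ 17 / 256 := by
      have h5 : |t * s ^ 2| ≤ 1 / 256 := by
        rw [abs_mul, abs_pow]
        calc |t| * |s| ^ 2 ≤ T ^ 2 * d ^ 2 :=
              mul_le_mul ht (pow_le_pow_left₀ (abs_nonneg _) hsd 2) (by positivity) (by positivity)
          _ = (T * d) ^ 2 := by ring
          _ = 1 / 256 := by rw [hTd]; norm_num
      have h6 : |x * s| ≤ 1 / 16 := by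
        rw [abs_mul]
        calc |x| * |s| ≤ T * d := mul_le_mul hx hsd (abs_nonneg _) hT.le
          _ = 1 / 16 := hTd
      calc |t * s ^ 2 + x * s| ≤ |t * s ^ 2| + |x * s| := abs_add_le _ _
        _ ≤ 17 / 256 := by linarith
    have hpi := Real.pi_pos
    have h7 : |2 * Real.pi * (t * s ^ 2 + x * s)| ≤ Real.pi / 3 := by
      rw [abs_mul, abs_of_pos (by positivity)]
      have : 2 * Real.pi * |t * s ^ 2 + x * s| ≤ 2 * Real.pi * (17 / 256) :=
        mul_le_mul_of_nonneg_left h4 (by positivity)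
      nlinarith
    have h8 := Real.cos_le_cos_of_nonneg_of_le_pi (abs_nonneg (2 * Real.pi * (t * s ^ 2 + x * s)))
      (by linarith) h7
    rw [Real.cos_abs, Real.cos_pi_div_three] at h8
    exact h8
  have h9 : ∫ s in Set.Icc (-d) d, (1/2 : ℝ) ≤ ∫ s in Set.Icc (-d) d, (ex (t * s ^ 2 + x * s)).re :=
    setIntegral_mono_on (by
      apply Continuous.integrableOn_Icc
      fun_prop) hint.re measurableSet_Icc h3
  refine le_trans (le_of_eq ?_) h9
  rw [setIntegral_const, smul_eq_mul, Measure.real, Real.volume_Icc,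
    ENNReal.toReal_ofReal (by linarith)]
  ring

/-- the convolution form of the box coefficients -/
noncomputable def hcv (d t : ℝ) (G : ℝ → ℂ) (a : ℝ) : ℂ := ∫ ξ, G ξ * chw d t (a - ξ)

theorem hcv_int2 {G : ℝ → ℂ} (hG : Integrable G) (d t : ℝ) :
    Integrable (fun p : ℝ × ℝ => G p.2 * chw d t (p.1 - p.2)) (volume.prod volume) := by
  have := hG.convolution_integrand (ContinuousLinearMap.mul ℂ ℂ) (chw_integrable d t)
  simpa using this

theorem hcv_integrable {G : ℝ → ℂ} (hG : Integrable G) (d t : ℝ) : Integrable (hcv d t G) :=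
  (hcv_int2 hG d t).integral_prod_left

theorem hcv_bdd {G : ℝ → ℂ} (hG : Integrable G) (d t a : ℝ) : ‖hcv d t G a‖ ≤ ∫ ξ, ‖G ξ‖ := by
  unfold hcv
  refine norm_integral_le_of_norm_le hG.norm (Filter.Eventually.of_forall fun ξ => ?_)
  rw [norm_mul]
  exact mul_le_of_le_one_right (norm_nonneg _) (chw_norm_le _ _ _)

theorem hcv_memLp {G : ℝ → ℂ} (hG : Integrable G) (d t : ℝ) : MemLp (hcv d t G) 2 := by
  have hi := hcv_integrable hG d t
  rw [memLp_two_iff_integrable_sq_norm hi.aestronglyMeasurable]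
  refine Integrable.mono' (g := fun a => (∫ ξ, ‖G ξ‖) * ‖hcv d t G a‖) (hi.norm.const_mul _)
    (hi.aestronglyMeasurable.norm.pow 2) (Filter.Eventually.of_forall fun a => ?_)
  rw [Real.norm_of_nonneg (by positivity), pow_two]
  exact mul_le_mul_of_nonneg_right (hcv_bdd hG d t a) (norm_nonneg _)

theorem hcv_ft {G : ℝ → ℂ} (hG : Integrable G) (d t x : ℝ) :
    ∫ a, hcv d t G a * ex (x * a) = (∫ ξ, G ξ * ex (x * ξ)) * ∫ s, chw d t s * ex (x * s) := by
  have h2 := hcv_int2 hG d t
  have hc := continuous_ex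
  have h3 : Integrable (fun p : ℝ × ℝ => G p.2 * chw d t (p.1 - p.2) * ex (x * p.1))
      (volume.prod volume) := by
    refine h2.mul_bdd (c := 1) ?_ (Filter.Eventually.of_forall fun p => by rw [norm_ex])
    have : Continuous (fun p : ℝ × ℝ => ex (x * p.1)) := by fun_prop
    exact this.aestronglyMeasurable
  have h4 : ∀ a, hcv d t G a * ex (x * a) = ∫ ξ, G ξ * chw d t (a - ξ) * ex (x * a) := by
    intro a
    unfold hcv
    rw [integral_mul_const]
  simp_rw [h4]
  rw [integral_integral_swap h3]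
  rw [← integral_mul_const]
  refine integral_congr_ae (Filter.Eventually.of_forall fun ξ => ?_)
  simp only
  have h5 : ∫ a, G ξ * chw d t (a - ξ) * ex (x * a)
      = ∫ s, G ξ * chw d t s * ex (x * (s + ξ)) := by
    rw [← integral_sub_right_eq_self (fun s => G ξ * chw d t s * ex (x * (s + ξ))) ξ]
    simp
  rw [h5, ← integral_const_mul]
  refine integral_congr_ae (Filter.Eventually.of_forall fun s => ?_)
  simp only
  rw [mul_add, ex_add]
  ring

theorem norm_bc_eq (d : ℝ) (g : ℝ → ℂ) (a X t : ℝ) :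
    ‖hcv d t (fun ξ => g ξ * ex (X * ξ - t * ξ ^ 2)) a‖ = ‖bc d g a (X - 2 * a * t)‖ := by
  have h : hcv d t (fun ξ => g ξ * ex (X * ξ - t * ξ ^ 2)) a
      = ex (t * a ^ 2) * bc d g a (X - 2 * a * t) := by
    unfold hcv bc
    rw [← integral_indicator measurableSet_Icc, ← integral_const_mul]
    refine integral_congr_ae (Filter.Eventually.of_forall fun ξ => ?_)
    simp only
    unfold chw Set.indicator
    have hiff : a - ξ ∈ Set.Icc (-d) d ↔ ξ ∈ Set.Icc (a - d) (a + d) := by
      rw [Set.mem_Icc, Set.mem_Icc]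
      constructor <;> rintro ⟨h1, h2⟩ <;> constructor <;> linarith
    by_cases hm : ξ ∈ Set.Icc (a - d) (a + d)
    · rw [if_pos hm, if_pos (hiff.mpr hm)]
      have : t * a ^ 2 + (X - 2 * a * t) * ξ = (X * ξ - t * ξ ^ 2) + t * (a - ξ) ^ 2 := by ring
      calc g ξ * ex (X * ξ - t * ξ ^ 2) * ex (t * (a - ξ) ^ 2)
          = g ξ * ex ((X * ξ - t * ξ ^ 2) + t * (a - ξ) ^ 2) := by rw [ex_add]; ring
        _ = _ := by rw [← this, ex_add]; ring
    · rw [if_neg hm, if_neg (fun h => hm (hiff.mp h))]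
      simp
  rw [h, norm_mul, norm_ex, one_mul]

/-- local energy on a sharp window against the box coefficients -/
theorem box_ineq {g : ℝ → ℂ} (hg : Integrable g) {T t : ℝ} (hT : 0 < T) (ht : |t| ≤ T ^ 2) (X : ℝ) :
    ENNReal.ofReal ((1 / (16 * T)) ^ 2) *
      ∫⁻ x, Set.indicator (Set.Icc (-T) T) (fun x => ‖sol g (X + x) t‖ₑ ^ 2) x
      ≤ ∫⁻ a, ‖bc (1 / (16 * T)) g a (X - 2 * a * t)‖ₑ ^ 2 := by
  set d := 1 / (16 * T) with hd
  have hd0 : 0 < d := by positivity
  have hc := continuous_ex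
  set G : ℝ → ℂ := fun ξ => g ξ * ex (X * ξ - t * ξ ^ 2) with hGdef
  have hG : Integrable G := by
    refine hg.mul_bdd (c := 1) ?_ (Filter.Eventually.of_forall fun p => by rw [norm_ex])
    have : Continuous (fun ξ : ℝ => ex (X * ξ - t * ξ ^ 2)) := by fun_prop
    exact this.aestronglyMeasurable
  have h1 := planch_ex (hcv d t G) (hcv_integrable hG d t) (hcv_memLp hG d t)
  have h2 : ∀ a, ‖hcv d t G a‖ₑ ^ 2 = ‖bc d g a (X - 2 * a * t)‖ₑ ^ 2 := by
    intro a
    have := norm_bc_eq d g a X t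
    rw [← ofReal_norm_eq_enorm, ← ofReal_norm_eq_enorm, this]
  simp_rw [h2] at h1
  rw [← h1]
  rw [← lintegral_const_mul' _ _ ENNReal.ofReal_ne_top]
  refine lintegral_mono fun x => ?_
  rw [hcv_ft hG]
  have h3 : ∫ ξ, G ξ * ex (x * ξ) = sol g (X + x) t := by
    unfold sol
    refine integral_congr_ae (Filter.Eventually.of_forall fun ξ => ?_)
    simp only [hGdef]
    rw [mul_assoc, ← ex_add]
    congr 2
    ring
  rw [h3]
  unfold Set.indicator
  split_ifs with hm
  · have hx : |x| ≤ T := abs_le.mpr ⟨hm.1, hm.2⟩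
    have h4 := chw_lower hT ht hx
    rw [← hd] at h4
    rw [enorm_mul, mul_pow, mul_comm]
    refine mul_le_mul_right ?_ _
    rw [← ofReal_norm_eq_enorm, ← ENNReal.ofReal_pow (norm_nonneg _)]
    exact ENNReal.ofReal_le_ofReal (pow_le_pow_left₀ hd0.le h4 2)
  · simp

/-- mass of the box coefficients -/
theorem box_mass {g : ℝ → ℂ} (hg : Integrable g) (hg2 : MemLp g 2) (d a : ℝ) :
    ∫⁻ c, ‖bc d g a c‖ₑ ^ 2 = ∫⁻ ξ, Set.indicator (Set.Icc (a - d) (a + d)) (fun ξ => ‖g ξ‖ₑ ^ 2) ξ := by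
  have h1 := planch_ex (Set.indicator (Set.Icc (a - d) (a + d)) g)
    (hg.indicator measurableSet_Icc) (hg2.indicator measurableSet_Icc)
  have h2 : ∀ c, bc d g a c = ∫ ξ, Set.indicator (Set.Icc (a - d) (a + d)) g ξ * ex (c * ξ) := by
    intro c
    unfold bc
    rw [← integral_indicator measurableSet_Icc]
    refine integral_congr_ae (Filter.Eventually.of_forall fun ξ => ?_)
    simp only
    unfold Set.indicator
    split_ifs <;> simp
  simp_rw [h2]
  rw [h1]
  refine lintegral_congr fun ξ => ?_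
  unfold Set.indicator
  split_ifs <;> simp

end Vale.Agent.P076.H21
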