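import Vale.Agent.P076.H21.LowA

/-! # P076, H21: the weighted local energy and the box coefficients -/

set_option linter.all false

open MeasureTheory Complex
open Vale.Agent.P076.X
open scoped ENNReal

namespace Vale.Agent.P076.H21

theorem W_nn {T : ℝ} (hT : 0 < T) (u : ℝ) : 0 ≤ W T u := by unfold W; positivity

theorem W_cont (T : ℝ) : Continuous (W T) := Vale.Agent.P076.H972.continuous_W T

theorem W_cmp {T u v : ℝ} (hT : 0 < T) (h : |u - v| ≤ T) : W T u ≤ 9 * W T v := by
  have hpi := Real.pi_pos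
  have h0 : (u - v) ^ 2 ≤ T ^ 2 := sq_le_sq' (by linarith [(abs_le.mp h).1]) (abs_le.mp h).2
  have h1 : v ^ 2 / T ^ 2 ≤ 2 * (u ^ 2 / T ^ 2) + 2 := by
    rw [div_le_iff₀ (by positivity)]
    have : (2 * (u ^ 2 / T ^ 2) + 2) * T ^ 2 = 2 * u ^ 2 + 2 * T ^ 2 := by field_simp
    rw [this]
    nlinarith [sq_nonneg (2 * u - v)]
  have hu : 0 ≤ u ^ 2 / T ^ 2 := by positivity
  have hv : 0 ≤ v ^ 2 / T ^ 2 := by positivity
  unfold W
  have h2 : ((1 + u ^ 2 / T ^ 2) ^ 2)⁻¹ ≤ 9 * ((1 + v ^ 2 / T ^ 2) ^ 2)⁻¹ := by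
    rw [← div_eq_mul_inv, inv_le_comm₀ (by positivity) (by positivity), inv_div,
      div_le_iff₀ (by norm_num)]
    have : 1 + v ^ 2 / T ^ 2 ≤ 3 * (1 + u ^ 2 / T ^ 2) := by linarith
    nlinarith
  calc 2 / (Real.pi * T) * ((1 + u ^ 2 / T ^ 2) ^ 2)⁻¹
      ≤ 2 / (Real.pi * T) * (9 * ((1 + v ^ 2 / T ^ 2) ^ 2)⁻¹) :=
        mul_le_mul_of_nonneg_left h2 (by positivity)
    _ = _ := by ring

theorem sol_meas' {α : Type*} [MeasurableSpace α] {F : α → ℝ → ℂ}
    (hF : Measurable (fun p : α × ℝ => F p.1 p.2)) (t : ℝ) :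
    Measurable (fun q : α × ℝ => sol (F q.1) q.2 t) := by
  have he := measurable_ex
  have h : StronglyMeasurable (fun p : (α × ℝ) × ℝ => F p.1.1 p.2 * ex (p.1.2 * p.2 - t * p.2 ^ 2)) := by
    apply Measurable.stronglyMeasurable
    have h1 : Measurable (fun p : (α × ℝ) × ℝ => F p.1.1 p.2) :=
      hF.comp ((measurable_fst.comp measurable_fst).prodMk measurable_snd)
    have h2 : Measurable (fun p : (α × ℝ) × ℝ => p.1.2 * p.2 - t * p.2 ^ 2) := by fun_prop
    exact h1.mul (he.comp h2)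
  exact (h.integral_prod_right' (ν := volume)).measurable

theorem sol_meas {g : ℝ → ℂ} (hg : Measurable g) (t : ℝ) : Measurable (fun x => sol g x t) := by
  have h : Measurable (fun q : Unit × ℝ => sol g q.2 t) :=
    sol_meas' (α := Unit) (F := fun _ => g) (hg.comp measurable_snd) t
  have h2 : Measurable (fun x : ℝ => (((), x) : Unit × ℝ)) := measurable_prodMk_left
  exact (Measurable.comp h h2 : Measurable ((fun q : Unit × ℝ => sol g q.2 t) ∘ (fun x : ℝ => (((), x) : Unit × ℝ))))

theorem bc_meas' {α : Type*} [MeasurableSpace α] {F : α → ℝ → ℂ}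
    (hF : Measurable (fun p : α × ℝ => F p.1 p.2)) (d : ℝ) :
    Measurable (fun q : α × ℝ × ℝ => bc d (F q.1) q.2.1 q.2.2) := by
  have he := measurable_ex
  have hset : MeasurableSet {q : (α × ℝ × ℝ) × ℝ | q.2 ∈ Set.Icc (q.1.2.1 - d) (q.1.2.1 + d)} := by
    have h1 : MeasurableSet {q : (α × ℝ × ℝ) × ℝ | q.1.2.1 - d ≤ q.2} :=
      measurableSet_le (by fun_prop) (by fun_prop)
    have h2 : MeasurableSet {q : (α × ℝ × ℝ) × ℝ | q.2 ≤ q.1.2.1 + d} :=
      measurableSet_le (by fun_prop) (by fun_prop)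
    exact h1.inter h2
  have h : StronglyMeasurable (fun q : (α × ℝ × ℝ) × ℝ => Set.indicator
      {q : (α × ℝ × ℝ) × ℝ | q.2 ∈ Set.Icc (q.1.2.1 - d) (q.1.2.1 + d)}
      (fun q => F q.1.1 q.2 * ex (q.1.2.2 * q.2)) q) := by
    apply Measurable.stronglyMeasurable
    refine Measurable.indicator ?_ hset
    have h1 : Measurable (fun q : (α × ℝ × ℝ) × ℝ => F q.1.1 q.2) :=
      hF.comp ((measurable_fst.comp measurable_fst).prodMk measurable_snd)
    have h2 : Measurable (fun q : (α × ℝ × ℝ) × ℝ => q.1.2.2 * q.2) := by fun_prop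
    exact h1.mul (he.comp h2)
  have h3 := (h.integral_prod_right' (ν := volume)).measurable
  have h4 : (fun q : α × ℝ × ℝ => bc d (F q.1) q.2.1 q.2.2) = fun x : α × ℝ × ℝ => ∫ y : ℝ, Set.indicator
      {q : (α × ℝ × ℝ) × ℝ | q.2 ∈ Set.Icc (q.1.2.1 - d) (q.1.2.1 + d)}
      (fun q => F q.1.1 q.2 * ex (q.1.2.2 * q.2)) (x, y) := by
    funext x
    unfold bc
    rw [← integral_indicator measurableSet_Icc]
    rfl
  rw [h4]
  exact h3

theorem bc_meas {g : ℝ → ℂ} (hg : Measurable g) (d : ℝ) : Measurable (fun p : ℝ × ℝ => bc d g p.1 p.2) := by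
  have h : Measurable (fun q : Unit × ℝ × ℝ => bc d g q.2.1 q.2.2) :=
    bc_meas' (α := Unit) (F := fun _ => g) (hg.comp measurable_snd) d
  have h2 : Measurable (fun x : ℝ × ℝ => (((), x) : Unit × ℝ × ℝ)) := measurable_prodMk_left
  exact (Measurable.comp h h2 : Measurable ((fun q : Unit × ℝ × ℝ => bc d g q.2.1 q.2.2) ∘
    (fun x : ℝ × ℝ => (((), x) : Unit × ℝ × ℝ))))

theorem W_avg {T : ℝ} (hT : 0 < T) (x x' : ℝ) (s : ℝ≥0∞) :
    ENNReal.ofReal (2 * T) * (ENNReal.ofReal (W T (x - x')) * s)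
      ≤ 9 * ∫⁻ X, Set.indicator (Set.Icc (-T) T) (fun _ => ENNReal.ofReal (W T (x - X)) * s) (x' - X) := by
  have h0 : ENNReal.ofReal (2 * T) = ∫⁻ X : ℝ, Set.indicator (Set.Icc (-T) T) (fun _ => (1 : ℝ≥0∞)) (x' - X) := by
    have h1 : ∀ X : ℝ, Set.indicator (Set.Icc (-T) T) (fun _ => (1 : ℝ≥0∞)) (x' - X)
        = Set.indicator (Set.Icc (x' - T) (x' + T)) (fun _ => (1 : ℝ≥0∞)) X := by
      intro X
      have hiff : x' - X ∈ Set.Icc (-T) T ↔ X ∈ Set.Icc (x' - T) (x' + T) := by
        rw [Set.mem_Icc, Set.mem_Icc]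
        constructor <;> rintro ⟨h1, h2⟩ <;> constructor <;> linarith
      unfold Set.indicator
      simp only [hiff]
    simp_rw [h1]
    rw [lintegral_indicator measurableSet_Icc]
    simp only [lintegral_const, one_mul, Measure.restrict_apply MeasurableSet.univ, Set.univ_inter,
      Real.volume_Icc]
    congr 1
    ring
  rw [h0]
  have hm : Measurable (fun X : ℝ => Set.indicator (Set.Icc (-T) T) (fun _ => (1 : ℝ≥0∞)) (x' - X)) := by
    have h2 : Measurable (Set.indicator (Set.Icc (-T) T) (fun _ : ℝ => (1 : ℝ≥0∞))) :=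
      measurable_const.indicator measurableSet_Icc
    exact h2.comp (by fun_prop)
  rw [← lintegral_mul_const _ hm, ← lintegral_const_mul' _ _ (by norm_num)]
  refine lintegral_mono fun X => ?_
  unfold Set.indicator
  split_ifs with hX
  · simp only [one_mul]
    rw [← mul_assoc]
    refine mul_le_mul_left ?_ _
    have hc := W_cmp hT (u := x - x') (v := x - X) (by
      have : x - x' - (x - X) = -(x' - X) := by ring
      rw [this, abs_neg]
      exact abs_le.mpr ⟨hX.1, hX.2⟩)
    calc ENNReal.ofReal (W T (x - x')) ≤ ENNReal.ofReal (9 * W T (x - X)) := ENNReal.ofReal_le_ofReal hc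
      _ = 9 * ENNReal.ofReal (W T (x - X)) := by
        rw [ENNReal.ofReal_mul (by norm_num)]
        norm_num
  · simp

/-- weighted local energy at one time against the box coefficients along straight lines -/
theorem box_W {g : ℝ → ℂ} (hgm : Measurable g) (hg : Integrable g) {T t : ℝ} (hT : 0 < T) (ht : |t| ≤ T ^ 2)
    (x : ℝ) :
    ∫⁻ x', ENNReal.ofReal (W T (x - x')) * ‖sol g x' t‖ₑ ^ 2 ≤ ENNReal.ofReal (1152 * T) *
      ∫⁻ a, ∫⁻ c, ENNReal.ofReal (W T (x - c - 2 * a * t)) * ‖bc (1 / (16 * T)) g a c‖ₑ ^ 2 := by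
  set d := 1 / (16 * T) with hd
  have hW := W_cont T
  have hsm := sol_meas hgm t
  have hbm := bc_meas hgm d
  have hWm : Measurable (W T) := hW.measurable
  set s : ℝ → ℝ≥0∞ := fun x' => ‖sol g x' t‖ₑ ^ 2 with hs
  have hsM : Measurable s := (hsm.enorm).pow_const 2
  set b : ℝ × ℝ → ℝ≥0∞ := fun p => ‖bc d g p.1 p.2‖ₑ ^ 2 with hb
  have hbM : Measurable b := (hbm.enorm).pow_const 2
  -- step 1
  have h1 : ENNReal.ofReal (2 * T) * ∫⁻ x', ENNReal.ofReal (W T (x - x')) * s x'
      ≤ 9 * ∫⁻ X, ENNReal.ofReal (W T (x - X)) *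
        ∫⁻ v, Set.indicator (Set.Icc (-T) T) (fun v => s (X + v)) v := by
    rw [← lintegral_const_mul' _ _ ENNReal.ofReal_ne_top]
    calc ∫⁻ x', ENNReal.ofReal (2 * T) * (ENNReal.ofReal (W T (x - x')) * s x')
        ≤ ∫⁻ x', 9 * ∫⁻ X, Set.indicator (Set.Icc (-T) T)
            (fun _ => ENNReal.ofReal (W T (x - X)) * s x') (x' - X) :=
          lintegral_mono fun x' => W_avg hT x x' (s x')
      _ = 9 * ∫⁻ x', ∫⁻ X, Set.indicator (Set.Icc (-T) T)
            (fun _ => ENNReal.ofReal (W T (x - X)) * s x') (x' - X) := by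
          rw [lintegral_const_mul' _ _ (by norm_num)]
      _ = 9 * ∫⁻ X, ∫⁻ x', Set.indicator (Set.Icc (-T) T)
            (fun _ => ENNReal.ofReal (W T (x - X)) * s x') (x' - X) := by
          congr 1
          apply lintegral_lintegral_swap
          apply Measurable.aemeasurable
          have hset : MeasurableSet {q : ℝ × ℝ | q.1 - q.2 ∈ Set.Icc (-T) T} :=
            measurableSet_preimage (by fun_prop : Measurable fun q : ℝ × ℝ => q.1 - q.2) measurableSet_Icc
          have h5 : Measurable (Set.indicator {q : ℝ × ℝ | q.1 - q.2 ∈ Set.Icc (-T) T}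
              (fun q => ENNReal.ofReal (W T (x - q.2)) * s q.1)) := by
            refine Measurable.indicator ?_ hset
            exact ((hWm.comp (by fun_prop)).ennreal_ofReal).mul (hsM.comp measurable_fst)
          exact h5
      _ = _ := by
          congr 1
          refine lintegral_congr fun X => ?_
          have h6 : ∀ x', Set.indicator (Set.Icc (-T) T)
            (fun _ => ENNReal.ofReal (W T (x - X)) * s x') (x' - X)
            = ENNReal.ofReal (W T (x - X)) * (fun v => Set.indicator (Set.Icc (-T) T)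
              (fun v => s (X + v)) v) (x' - X) := by
            intro x'
            by_cases hm : x' - X ∈ Set.Icc (-T) T
            · simp only [Set.indicator_of_mem hm, add_sub_cancel]
            · simp only [Set.indicator_of_notMem hm, mul_zero]
          simp_rw [h6]
          rw [lintegral_const_mul' _ _ ENNReal.ofReal_ne_top]
          congr 1
          exact lintegral_sub_right_eq_self (fun v => Set.indicator (Set.Icc (-T) T)
              (fun v => s (X + v)) v) X
  have h2 : ∀ X, ENNReal.ofReal (d ^ 2) * ∫⁻ v, Set.indicator (Set.Icc (-T) T) (fun v => s (X + v)) v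
      ≤ ∫⁻ a, b (a, X - 2 * a * t) := fun X => box_ineq hg hT ht X
  have h3 : ENNReal.ofReal (d ^ 2) * (ENNReal.ofReal (2 * T) * ∫⁻ x', ENNReal.ofReal (W T (x - x')) * s x')
      ≤ 9 * ∫⁻ a, ∫⁻ c, ENNReal.ofReal (W T (x - c - 2 * a * t)) * b (a, c) := by
    calc ENNReal.ofReal (d ^ 2) * (ENNReal.ofReal (2 * T) * ∫⁻ x', ENNReal.ofReal (W T (x - x')) * s x')
        ≤ ENNReal.ofReal (d ^ 2) * (9 * ∫⁻ X, ENNReal.ofReal (W T (x - X)) *
          ∫⁻ v, Set.indicator (Set.Icc (-T) T) (fun v => s (X + v)) v) := mul_le_mul_right h1 _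
      _ = 9 * ∫⁻ X, ENNReal.ofReal (W T (x - X)) *
          (ENNReal.ofReal (d ^ 2) * ∫⁻ v, Set.indicator (Set.Icc (-T) T) (fun v => s (X + v)) v) := by
          rw [mul_left_comm, ← lintegral_const_mul' _ _ ENNReal.ofReal_ne_top]
          congr 1
          refine lintegral_congr fun X => ?_
          rw [mul_left_comm]
      _ ≤ 9 * ∫⁻ X, ENNReal.ofReal (W T (x - X)) * ∫⁻ a, b (a, X - 2 * a * t) := by
          refine mul_le_mul_right ?_ _
          exact lintegral_mono fun X => mul_le_mul_right (h2 X) _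
      _ = 9 * ∫⁻ X, ∫⁻ a, ENNReal.ofReal (W T (x - X)) * b (a, X - 2 * a * t) := by
          congr 1
          refine lintegral_congr fun X => ?_
          rw [lintegral_const_mul' _ _ ENNReal.ofReal_ne_top]
      _ = 9 * ∫⁻ a, ∫⁻ X, ENNReal.ofReal (W T (x - X)) * b (a, X - 2 * a * t) := by
          congr 1
          apply lintegral_lintegral_swap
          apply Measurable.aemeasurable
          have h7 : Measurable (fun q : ℝ × ℝ => ENNReal.ofReal (W T (x - q.1)) * b (q.2, q.1 - 2 * q.2 * t)) := by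
            refine ((hWm.comp (by fun_prop)).ennreal_ofReal).mul (hbM.comp ?_)
            exact Measurable.prodMk measurable_snd (by fun_prop)
          exact h7
      _ = _ := by
          congr 1
          refine lintegral_congr fun a => ?_
          rw [← lintegral_add_right_eq_self (fun X => ENNReal.ofReal (W T (x - X)) * b (a, X - 2 * a * t))
            (2 * a * t)]
          refine lintegral_congr fun c => ?_
          have e1 : x - (c + 2 * a * t) = x - c - 2 * a * t := by ring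
          have e2 : c + 2 * a * t - 2 * a * t = c := by ring
          simp only [e1, e2]
  have hpos : (0:ℝ) < d ^ 2 * (2 * T) := by rw [hd]; positivity
  have h4 : ENNReal.ofReal (d ^ 2) * (ENNReal.ofReal (2 * T) * ∫⁻ x', ENNReal.ofReal (W T (x - x')) * s x')
      = ENNReal.ofReal (d ^ 2 * (2 * T)) * ∫⁻ x', ENNReal.ofReal (W T (x - x')) * s x' := by
    rw [← mul_assoc, ← ENNReal.ofReal_mul (by positivity)]
  rw [h4] at h3
  have h8 : ENNReal.ofReal (1152 * T) * ENNReal.ofReal (d ^ 2 * (2 * T)) = 9 := by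
    rw [← ENNReal.ofReal_mul (by positivity)]
    have : 1152 * T * (d ^ 2 * (2 * T)) = 9 := by
      rw [hd]
      field_simp
      norm_num
    rw [this]
    norm_num
  have hne : ENNReal.ofReal (d ^ 2 * (2 * T)) ≠ 0 := by
    rw [Ne, ENNReal.ofReal_eq_zero, not_le]; exact hpos
  rw [← h8, mul_comm (ENNReal.ofReal (1152 * T)), mul_assoc] at h3
  exact (ENNReal.mul_le_mul_iff_right hne ENNReal.ofReal_ne_top).mp h3

end Vale.Agent.P076.H21
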