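import Vale.Agent.P076.H21.LowB

/-! # P076, H21: two variables; the Schur inequality for the normally resolved energy -/

set_option linter.all false

open MeasureTheory Complex
open Vale.Agent.P076.X
open scoped ENNReal

namespace Vale.Agent.P076.H21

/-- profiles in the strip -/
structure S2 (w : ℝ) (G : ℝ × ℝ → ℂ) : Prop where
  meas : Measurable G
  bdd : ∃ b : ℝ, ∀ p, ‖G p‖ ≤ b
  s0 : ∀ p, G p ≠ 0 → |p.1| ≤ 1
  s1 : ∀ p, G p ≠ 0 → |p.2| ≤ w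

/-- profile (in the first variable) on the line `y` at time `t` -/
noncomputable def prof (G : ℝ × ℝ → ℂ) (y t ξ : ℝ) : ℂ := sol (fun ζ => G (ξ, ζ)) y t

/-- box coefficient in the first variable -/
noncomputable def Bp (d : ℝ) (G : ℝ × ℝ → ℂ) (p : ℝ × ℝ) (ζ : ℝ) : ℂ := bc d (fun ξ => G (ξ, ζ)) p.1 p.2

/-- energy of a packet -/
noncomputable def mu (d : ℝ) (G : ℝ × ℝ → ℂ) (p : ℝ × ℝ) : ℝ≥0∞ := ∫⁻ ζ, ‖Bp d G p ζ‖ₑ ^ 2

/-- normal weight -/
noncomputable def kap (w s : ℝ) : ℝ := w * ((1 + w * |s|) ^ 4)⁻¹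

/-- lintegral form of the normally resolved energy -/
noncomputable def EL (T w : ℝ) (G : ℝ × ℝ → ℂ) (x y t : ℝ) : ℝ≥0∞ :=
  ∫⁻ y', ENNReal.ofReal (kap w (y - y')) *
    ∫⁻ x', ENNReal.ofReal (W T (x - x')) * ‖sol (prof G y' t) x' t‖ₑ ^ 2

def StTT : Prop := ∃ C : ℝ, 0 < C ∧ ∀ (ι : Type) (s : Finset ι) (T w D : ℝ) (c : ℝ → ℂ) (om y t : ι → ℝ),
  0 < T → 0 < w → T * w ^ 2 ≤ 1 → Good c → (∀ z, c z ≠ 0 → |z| ≤ w) → (∀ i ∈ s, 0 ≤ om i) → 0 ≤ D →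
  (∀ k : ℤ, ∑ i ∈ s.filter (fun i => ⌊t i / T⌋ = k), om i ≤ D) →
  ∑ i ∈ s, om i * ‖sol c (y i) (t i)‖ ^ 2 ≤ C * (Real.sqrt T)⁻¹ * Real.sqrt (D * ∑ i ∈ s, om i) * ms c

def Inj {ι : Type} (P : Finset ι) (T : ℝ) (x t : ι → ℝ) : Prop :=
  ∀ i ∈ P, ∀ j ∈ P, ⌊x i / T⌋ = ⌊x j / T⌋ → ⌊t i / T⌋ = ⌊t j / T⌋ → i = j

def StCO : Prop := ∃ C : ℝ, 0 < C ∧ ∀ (ι : Type) (P : Finset ι) (x t : ι → ℝ) (T b c : ℝ),
  0 < T → |b| ≤ 2 → Inj P T x t → ∀ k : ℤ,
  ∑ i ∈ P.filter (fun i => ⌊t i / T⌋ = k), W T (x i - c - 2 * b * t i) ≤ C / T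

def StTR : Prop := ∃ C : ℝ, 0 < C ∧ ∀ (ι : Type) (P : Finset ι) (x t : ι → ℝ) (T b c b' c' : ℝ),
  0 < T → |b| ≤ 2 → |b'| ≤ 2 → b ≠ b' → Inj P T x t →
  ∑ i ∈ P, W T (x i - c - 2 * b * t i) * W T (x i - c' - 2 * b' * t i) ≤ C / (T ^ 2 * |b - b'|)

theorem S2.integrable {w : ℝ} {G : ℝ × ℝ → ℂ} (h : S2 w G) : Integrable G := by
  obtain ⟨b, hb⟩ := h.bdd
  have hsub : ∀ p, p ∉ Set.Icc (-1:ℝ) 1 ×ˢ Set.Icc (-w) w → G p = 0 := by
    intro p hp
    by_contra hne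
    exact hp ⟨abs_le.mp (h.s0 p hne), abs_le.mp (h.s1 p hne)⟩
  have h1 : IntegrableOn G (Set.Icc (-1:ℝ) 1 ×ˢ Set.Icc (-w) w) := by
    refine Measure.integrableOn_of_bounded (M := b) ?_ h.meas.aestronglyMeasurable
      (Filter.Eventually.of_forall hb)
    exact ((isCompact_Icc.prod isCompact_Icc).measure_lt_top).ne
  rw [← integrableOn_univ]
  exact h1.of_forall_diff_eq_zero MeasurableSet.univ fun p hp => hsub p hp.2

theorem S2.slice_int {w : ℝ} {G : ℝ × ℝ → ℂ} (h : S2 w G) (ξ : ℝ) : Integrable (fun ζ => G (ξ, ζ)) := by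
  obtain ⟨b, hb⟩ := h.bdd
  have h1 : IntegrableOn (fun ζ => G (ξ, ζ)) (Set.Icc (-w) w) := by
    refine Measure.integrableOn_of_bounded (M := b) ?_
      (h.meas.comp measurable_prodMk_left).aestronglyMeasurable (Filter.Eventually.of_forall fun ζ => hb _)
    rw [Real.volume_Icc]; exact ENNReal.ofReal_ne_top
  rw [← integrableOn_univ]
  refine h1.of_forall_diff_eq_zero MeasurableSet.univ fun ζ hζ => ?_
  by_contra hne
  exact hζ.2 (abs_le.mp (h.s1 _ hne))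

theorem S2.slice_int' {w : ℝ} {G : ℝ × ℝ → ℂ} (h : S2 w G) (ζ : ℝ) : Integrable (fun ξ => G (ξ, ζ)) := by
  obtain ⟨b, hb⟩ := h.bdd
  have h1 : IntegrableOn (fun ξ => G (ξ, ζ)) (Set.Icc (-1) 1) := by
    refine Measure.integrableOn_of_bounded (M := b) ?_
      (h.meas.comp measurable_prodMk_right).aestronglyMeasurable (Filter.Eventually.of_forall fun ζ => hb _)
    rw [Real.volume_Icc]; exact ENNReal.ofReal_ne_top
  rw [← integrableOn_univ]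
  refine h1.of_forall_diff_eq_zero MeasurableSet.univ fun ζ hζ => ?_
  by_contra hne
  exact hζ.2 (abs_le.mp (h.s0 _ hne))

theorem memLp_of_bdd {g : ℝ → ℂ} (hg : Integrable g) {b : ℝ} (hb : ∀ ξ, ‖g ξ‖ ≤ b) : MemLp g 2 := by
  rw [memLp_two_iff_integrable_sq_norm hg.aestronglyMeasurable]
  refine Integrable.mono' (g := fun a => b * ‖g a‖) (hg.norm.const_mul _)
    (hg.aestronglyMeasurable.norm.pow 2) (Filter.Eventually.of_forall fun a => ?_)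
  rw [Real.norm_of_nonneg (by positivity), pow_two]
  exact mul_le_mul_of_nonneg_right (hb a) (norm_nonneg _)

theorem prof_meas {w : ℝ} {G : ℝ × ℝ → ℂ} (h : S2 w G) (y t : ℝ) : Measurable (prof G y t) := by
  have h1 : Measurable (fun q : ℝ × ℝ => sol (fun ζ => G (q.1, ζ)) q.2 t) :=
    sol_meas' (F := fun ξ ζ => G (ξ, ζ)) h.meas t
  exact h1.comp (measurable_prodMk_right : Measurable (fun ξ : ℝ => (ξ, y)))

theorem prof_supp {w : ℝ} {G : ℝ × ℝ → ℂ} (h : S2 w G) (y t ξ : ℝ) (hne : prof G y t ξ ≠ 0) : |ξ| ≤ 1 := by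
  by_contra hc
  apply hne
  unfold prof sol
  have : ∀ ζ, G (ξ, ζ) = 0 := fun ζ => by
    by_contra h2
    exact hc (h.s0 _ h2)
  simp [this]

theorem prof_bdd {w : ℝ} {G : ℝ × ℝ → ℂ} (h : S2 w G) (hw : 0 ≤ w) :
    ∃ b : ℝ, ∀ y t ξ, ‖prof G y t ξ‖ ≤ b := by
  obtain ⟨b, hb⟩ := h.bdd
  refine ⟨b * (2 * w), fun y t ξ => ?_⟩
  unfold prof sol
  have h1 : ∀ ζ, ζ ∉ Set.Icc (-w) w → G (ξ, ζ) * ex (y * ζ - t * ζ ^ 2) = 0 := fun ζ hζ => by
    have : G (ξ, ζ) = 0 := by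
      by_contra hne
      exact hζ (abs_le.mp (h.s1 _ hne))
    simp [this]
  rw [← setIntegral_eq_integral_of_forall_compl_eq_zero h1]
  have h2 := norm_setIntegral_le_of_norm_le_const (μ := volume) (s := Set.Icc (-w) w)
    (f := fun ζ => G (ξ, ζ) * ex (y * ζ - t * ζ ^ 2)) (C := b)
    (by rw [Real.volume_Icc]; exact ENNReal.ofReal_lt_top) (fun ζ _ => by
      rw [norm_mul, norm_ex, mul_one]; exact hb _)
  refine h2.trans (le_of_eq ?_)
  rw [Measure.real, Real.volume_Icc, ENNReal.toReal_ofReal (by linarith)]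
  ring

theorem int_of_supp {g : ℝ → ℂ} (hm : Measurable g) {b r : ℝ} (hb : ∀ ξ, ‖g ξ‖ ≤ b)
    (hs : ∀ ξ, g ξ ≠ 0 → |ξ| ≤ r) : Integrable g := by
  have h1 : IntegrableOn g (Set.Icc (-r) r) := by
    refine Measure.integrableOn_of_bounded (M := b) ?_
      hm.aestronglyMeasurable (Filter.Eventually.of_forall fun ζ => hb _)
    rw [Real.volume_Icc]; exact ENNReal.ofReal_ne_top
  rw [← integrableOn_univ]
  refine h1.of_forall_diff_eq_zero MeasurableSet.univ fun ζ hζ => ?_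
  by_contra hne
  exact hζ.2 (abs_le.mp (hs _ hne))

theorem prof_int {w : ℝ} {G : ℝ × ℝ → ℂ} (h : S2 w G) (hw : 0 ≤ w) (y t : ℝ) : Integrable (prof G y t) := by
  obtain ⟨b, hb⟩ := prof_bdd h hw
  exact int_of_supp (prof_meas h y t) (hb y t) (prof_supp h y t)

theorem Bp_meas {w : ℝ} {G : ℝ × ℝ → ℂ} (h : S2 w G) (d : ℝ) :
    Measurable (fun q : (ℝ × ℝ) × ℝ => Bp d G q.1 q.2) := by
  have h1 : Measurable (fun q : ℝ × ℝ × ℝ => bc d (fun ξ => G (ξ, q.1)) q.2.1 q.2.2) :=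
    bc_meas' (F := fun ζ ξ => G (ξ, ζ)) (h.meas.comp measurable_swap) d
  have h2 : Measurable (fun q : (ℝ × ℝ) × ℝ => ((q.2, q.1) : ℝ × ℝ × ℝ)) := measurable_swap
  exact (Measurable.comp h1 h2 : Measurable ((fun q : ℝ × ℝ × ℝ => bc d (fun ξ => G (ξ, q.1)) q.2.1 q.2.2) ∘
    (fun q : (ℝ × ℝ) × ℝ => ((q.2, q.1) : ℝ × ℝ × ℝ))))

theorem Bp_supp {w : ℝ} {G : ℝ × ℝ → ℂ} (h : S2 w G) (d : ℝ) (p : ℝ × ℝ) (ζ : ℝ) (hne : Bp d G p ζ ≠ 0) :
    |ζ| ≤ w := by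
  by_contra hc
  apply hne
  unfold Bp bc
  have : ∀ ξ, G (ξ, ζ) = 0 := fun ξ => by
    by_contra h2
    exact hc (h.s1 _ h2)
  simp [this]

theorem Bp_zero {G : ℝ × ℝ → ℂ} {d : ℝ} {p : ℝ × ℝ}
    (h : ∀ ξ ζ, G (ξ, ζ) ≠ 0 → d < |ξ - p.1|) (ζ : ℝ) : Bp d G p ζ = 0 := by
  unfold Bp bc
  rw [setIntegral_eq_zero_of_forall_eq_zero]
  intro ξ hξ
  have : G (ξ, ζ) = 0 := by
    by_contra hne
    have h1 := h ξ ζ hne
    have h2 : |ξ - p.1| ≤ d := abs_le.mpr ⟨by linarith [hξ.1], by linarith [hξ.2]⟩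
    linarith
  simp [this]

theorem Bp_bdd {w : ℝ} {G : ℝ × ℝ → ℂ} (h : S2 w G) {d : ℝ} (hd : 0 ≤ d) :
    ∃ b : ℝ, ∀ p ζ, ‖Bp d G p ζ‖ ≤ b := by
  obtain ⟨b, hb⟩ := h.bdd
  refine ⟨b * (2 * d), fun p ζ => ?_⟩
  unfold Bp bc
  have h2 := norm_setIntegral_le_of_norm_le_const (μ := volume) (s := Set.Icc (p.1 - d) (p.1 + d))
    (f := fun ξ => G (ξ, ζ) * ex (p.2 * ξ)) (C := b)
    (by rw [Real.volume_Icc]; exact ENNReal.ofReal_lt_top) (fun ζ _ => by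
      rw [norm_mul, norm_ex, mul_one]; exact hb _)
  refine h2.trans (le_of_eq ?_)
  rw [Measure.real, Real.volume_Icc, ENNReal.toReal_ofReal (by linarith)]
  ring

theorem Bp_good {w : ℝ} {G : ℝ × ℝ → ℂ} (h : S2 w G) {d : ℝ} (hd : 0 ≤ d) (p : ℝ × ℝ) : Good (Bp d G p) := by
  obtain ⟨b, hb⟩ := Bp_bdd h hd
  have hm : Measurable (Bp d G p) := by
    have := (Bp_meas h d).comp (measurable_prodMk_left : Measurable (fun ζ : ℝ => (p, ζ)))
    exact this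
  have hi := int_of_supp hm (hb p) (Bp_supp h d p)
  exact ⟨hi, memLp_of_bdd hi (hb p)⟩

/-- Fubini -/
theorem bc_prof {w : ℝ} {G : ℝ × ℝ → ℂ} (h : S2 w G) (d a c y t : ℝ) :
    bc d (prof G y t) a c = sol (Bp d G (a, c)) y t := by
  have he := continuous_ex
  have hi : Integrable (fun q : ℝ × ℝ => G q * (ex (y * q.2 - t * q.2 ^ 2) * ex (c * q.1)))
      ((volume.restrict (Set.Icc (a - d) (a + d))).prod volume) := by
    have h1 : Integrable G ((volume.restrict (Set.Icc (a - d) (a + d))).prod volume) := by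
      have h2 : (volume.restrict (Set.Icc (a - d) (a + d))).prod (volume : Measure ℝ)
          = (volume.prod volume).restrict (Set.Icc (a - d) (a + d) ×ˢ Set.univ) := by
        rw [← Measure.prod_restrict, Measure.restrict_univ]
      rw [h2]
      exact h.integrable.restrict
    refine h1.mul_bdd (c := 1) ?_ (Filter.Eventually.of_forall fun p => by rw [norm_mul, norm_ex, norm_ex, mul_one])
    have : Continuous (fun q : ℝ × ℝ => ex (y * q.2 - t * q.2 ^ 2) * ex (c * q.1)) := by fun_prop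
    exact this.aestronglyMeasurable
  unfold bc prof sol Bp bc
  calc ∫ ξ in Set.Icc (a - d) (a + d), (∫ ζ, G (ξ, ζ) * ex (y * ζ - t * ζ ^ 2)) * ex (c * ξ)
      = ∫ ξ in Set.Icc (a - d) (a + d), ∫ ζ, G (ξ, ζ) * (ex (y * ζ - t * ζ ^ 2) * ex (c * ξ)) := by
        refine integral_congr_ae (Filter.Eventually.of_forall fun ξ => ?_)
        simp only
        rw [← integral_mul_const]
        refine integral_congr_ae (Filter.Eventually.of_forall fun ζ => ?_)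
        simp only
        ring
    _ = ∫ ζ, ∫ ξ in Set.Icc (a - d) (a + d), G (ξ, ζ) * (ex (y * ζ - t * ζ ^ 2) * ex (c * ξ)) :=
        integral_integral_swap hi
    _ = _ := by
        refine integral_congr_ae (Filter.Eventually.of_forall fun ζ => ?_)
        simp only
        rw [← integral_mul_const]
        refine integral_congr_ae (Filter.Eventually.of_forall fun ξ => ?_)
        simp only
        ring

end Vale.Agent.P076.H21
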