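import Vale.Agent.P076.H21.LowC

/-! # P076, H21: the Schur inequality for the normally resolved energy -/

set_option linter.all false

open MeasureTheory Complex
open Vale.Agent.P076.X
open scoped ENNReal

namespace Vale.Agent.P076.H21

theorem kap_nn {w : ℝ} (hw : 0 < w) (s : ℝ) : 0 ≤ kap w s := by unfold kap; positivity

theorem kap_cont {w : ℝ} (hw : 0 < w) : Continuous (kap w) := by
  unfold kap
  refine continuous_const.mul (Continuous.inv₀ (by fun_prop) fun s => ?_)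
  have : 0 ≤ w * |s| := by positivity
  positivity

theorem kap_le {w : ℝ} (hw : 0 < w) (s : ℝ) : kap w s ≤ w * (1 + (w * s) ^ 2)⁻¹ := by
  unfold kap
  refine mul_le_mul_of_nonneg_left ?_ hw.le
  apply inv_anti₀ (by positivity)
  have h0 : 0 ≤ w * |s| := by positivity
  have h1 : (w * s) ^ 2 = (w * |s|) ^ 2 := by rw [mul_pow, mul_pow, sq_abs]
  rw [h1]
  set u := w * |s|
  nlinarith [pow_nonneg h0 3, pow_nonneg h0 4, pow_nonneg h0 2]

theorem lint_kap {w : ℝ} (hw : 0 < w) : ∫⁻ s, ENNReal.ofReal (kap w s) ≤ ENNReal.ofReal Real.pi := by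
  have h1 : Integrable (fun s : ℝ => (1 + (w * s) ^ 2)⁻¹) :=
    (integrable_inv_one_add_sq).comp_mul_left' hw.ne'
  have h2 : ∫ s : ℝ, w * (1 + (w * s) ^ 2)⁻¹ = Real.pi := by
    rw [integral_const_mul, Measure.integral_comp_mul_left (fun s : ℝ => (1 + s ^ 2)⁻¹) w,
      integral_univ_inv_one_add_sq, abs_of_pos (inv_pos.mpr hw), smul_eq_mul, ← mul_assoc,
      mul_inv_cancel₀ hw.ne', one_mul]
  rw [← h2, ofReal_integral_eq_lintegral_ofReal (h1.const_mul w)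
    (Filter.Eventually.of_forall fun s => by positivity)]
  exact lintegral_mono fun s => ENNReal.ofReal_le_ofReal (kap_le hw s)

theorem mu_meas {w : ℝ} {G : ℝ × ℝ → ℂ} (h : S2 w G) (d : ℝ) : Measurable (mu d G) := by
  unfold mu
  exact (((Bp_meas h d).enorm).pow_const 2).lintegral_prod_right'

theorem slice_r {α β γ : Type*} [MeasurableSpace α] [MeasurableSpace β] [MeasurableSpace γ] {f : α × β → γ}
    (hf : Measurable f) (b : β) : Measurable (fun a => f (a, b)) := hf.comp measurable_prodMk_right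

theorem slice_l {α β γ : Type*} [MeasurableSpace α] [MeasurableSpace β] [MeasurableSpace γ] {f : α × β → γ}
    (hf : Measurable f) (a : α) : Measurable (fun b => f (a, b)) := hf.comp measurable_prodMk_left

theorem mass_slice {w : ℝ} {G : ℝ × ℝ → ℂ} (h : S2 w G) {d : ℝ} (hd : 0 ≤ d) (ζ : ℝ) :
    ∫⁻ a, ∫⁻ c, ‖Bp d G (a, c) ζ‖ₑ ^ 2 = ENNReal.ofReal (2 * d) * ∫⁻ ξ, ‖G (ξ, ζ)‖ₑ ^ 2 := by
  have hG2 : Measurable (fun q : ℝ × ℝ => ‖G q‖ₑ ^ 2) := (h.meas.enorm).pow_const 2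
  obtain ⟨b, hb⟩ := h.bdd
  have hgi := h.slice_int' ζ
  have hg2 : MemLp (fun ξ => G (ξ, ζ)) 2 := memLp_of_bdd hgi (fun ξ => hb _)
  have h2 : ∀ a, ∫⁻ c, ‖Bp d G (a, c) ζ‖ₑ ^ 2 = ∫⁻ ξ, Set.indicator (Set.Icc (-d) d)
      (fun _ => ‖G (ξ, ζ)‖ₑ ^ 2) (ξ - a) := by
    intro a
    have h3 := box_mass hgi hg2 d a
    unfold Bp
    simp only
    rw [h3]
    refine lintegral_congr fun ξ => ?_
    have hiff : ξ - a ∈ Set.Icc (-d) d ↔ ξ ∈ Set.Icc (a - d) (a + d) := by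
      rw [Set.mem_Icc, Set.mem_Icc]
      constructor <;> rintro ⟨h1, h2⟩ <;> constructor <;> linarith
    unfold Set.indicator
    simp only [hiff]
  simp_rw [h2]
  rw [lintegral_lintegral_swap]
  · rw [← lintegral_const_mul' _ _ ENNReal.ofReal_ne_top]
    refine lintegral_congr fun ξ => ?_
    have h4 : ∫⁻ a, Set.indicator (Set.Icc (-d) d) (fun _ => ‖G (ξ, ζ)‖ₑ ^ 2) (ξ - a)
        = ∫⁻ a, Set.indicator (Set.Icc (-d) d) (fun _ => ‖G (ξ, ζ)‖ₑ ^ 2) a :=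
      lintegral_sub_left_eq_self (fun a => Set.indicator (Set.Icc (-d) d) (fun _ => ‖G (ξ, ζ)‖ₑ ^ 2) a) ξ
    rw [h4, lintegral_indicator measurableSet_Icc]
    simp only [lintegral_const, Measure.restrict_apply MeasurableSet.univ, Set.univ_inter,
      Real.volume_Icc]
    rw [mul_comm]
    congr 2
    ring
  · apply Measurable.aemeasurable
    have hset : MeasurableSet {q : ℝ × ℝ | q.2 - q.1 ∈ Set.Icc (-d) d} :=
      measurableSet_preimage (by fun_prop : Measurable fun q : ℝ × ℝ => q.2 - q.1) measurableSet_Icc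
    have h5 : Measurable (Set.indicator {q : ℝ × ℝ | q.2 - q.1 ∈ Set.Icc (-d) d}
        (fun q => ‖G (q.2, ζ)‖ₑ ^ 2)) := by
      refine Measurable.indicator ?_ hset
      have h6 : Measurable (fun q : ℝ × ℝ => ((q.2, ζ) : ℝ × ℝ)) := measurable_snd.prodMk measurable_const
      have h7 := hG2.comp h6
      exact h7
    exact h5

theorem mass_mu {w : ℝ} {G : ℝ × ℝ → ℂ} (h : S2 w G) {d : ℝ} (hd : 0 ≤ d) :
    ∫⁻ p, mu d G p = ENNReal.ofReal (2 * d) * ∫⁻ q, ‖G q‖ₑ ^ 2 := by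
  have hB : Measurable (fun q : (ℝ × ℝ) × ℝ => ‖Bp d G q.1 q.2‖ₑ ^ 2) := ((Bp_meas h d).enorm).pow_const 2
  have hG2 : Measurable (fun q : ℝ × ℝ => ‖G q‖ₑ ^ 2) := (h.meas.enorm).pow_const 2
  unfold mu
  rw [lintegral_lintegral_swap hB.aemeasurable]
  have h1 : ∀ ζ, ∫⁻ p, ‖Bp d G p ζ‖ₑ ^ 2 = ENNReal.ofReal (2 * d) * ∫⁻ ξ, ‖G (ξ, ζ)‖ₑ ^ 2 := by
    intro ζ
    have hm1 := slice_r hB ζ
    rw [← mass_slice h hd ζ, Measure.volume_eq_prod]
    exact lintegral_prod _ hm1.aemeasurable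
  simp_rw [h1]
  rw [lintegral_const_mul' _ _ ENNReal.ofReal_ne_top]
  congr 1
  rw [Measure.volume_eq_prod, lintegral_prod_symm _ hG2.aemeasurable]

theorem solB_meas {w : ℝ} {G : ℝ × ℝ → ℂ} (h : S2 w G) (d t : ℝ) :
    Measurable (fun q : (ℝ × ℝ) × ℝ => sol (Bp d G q.1) q.2 t) :=
  sol_meas' (F := fun p ζ => Bp d G p ζ) (Bp_meas h d) t

/-- the energy of one point through the packets -/
theorem EL_le {w : ℝ} {G : ℝ × ℝ → ℂ} (h : S2 w G) (hw : 0 < w) {T t : ℝ} (hT : 0 < T) (ht : |t| ≤ T ^ 2)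
    (x y : ℝ) : EL T w G x y t ≤ ENNReal.ofReal (1152 * T) * ∫⁻ s, ENNReal.ofReal (kap w s) *
      ∫⁻ p : ℝ × ℝ, ENNReal.ofReal (W T (x - p.2 - 2 * p.1 * t)) *
        ‖sol (Bp (1 / (16 * T)) G p) (y - s) t‖ₑ ^ 2 := by
  set d := 1 / (16 * T) with hd
  have hWm : Measurable (W T) := (W_cont T).measurable
  have h1 : ∀ y', ∫⁻ x', ENNReal.ofReal (W T (x - x')) * ‖sol (prof G y' t) x' t‖ₑ ^ 2
      ≤ ENNReal.ofReal (1152 * T) * ∫⁻ p : ℝ × ℝ, ENNReal.ofReal (W T (x - p.2 - 2 * p.1 * t)) *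
        ‖sol (Bp d G p) y' t‖ₑ ^ 2 := by
    intro y'
    refine (box_W (prof_meas h y' t) (prof_int h hw.le y' t) hT ht x).trans (le_of_eq ?_)
    congr 1
    have hm : Measurable (fun p : ℝ × ℝ => ENNReal.ofReal (W T (x - p.2 - 2 * p.1 * t)) *
        ‖sol (Bp d G p) y' t‖ₑ ^ 2) := by
      refine ((hWm.comp (by fun_prop)).ennreal_ofReal).mul ?_
      exact (((solB_meas h d t).comp (measurable_prodMk_right : Measurable (fun p : ℝ × ℝ => (p, y')))).enorm).pow_const 2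
    rw [Measure.volume_eq_prod, lintegral_prod _ hm.aemeasurable]
    refine lintegral_congr fun a => lintegral_congr fun c => ?_
    rw [bc_prof h]
  unfold EL
  calc ∫⁻ y', ENNReal.ofReal (kap w (y - y')) *
        ∫⁻ x', ENNReal.ofReal (W T (x - x')) * ‖sol (prof G y' t) x' t‖ₑ ^ 2
      ≤ ∫⁻ y', ENNReal.ofReal (kap w (y - y')) * (ENNReal.ofReal (1152 * T) *
          ∫⁻ p : ℝ × ℝ, ENNReal.ofReal (W T (x - p.2 - 2 * p.1 * t)) * ‖sol (Bp d G p) y' t‖ₑ ^ 2) :=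
        lintegral_mono fun y' => mul_le_mul_right (h1 y') _
    _ = ENNReal.ofReal (1152 * T) * ∫⁻ y', ENNReal.ofReal (kap w (y - y')) *
          ∫⁻ p : ℝ × ℝ, ENNReal.ofReal (W T (x - p.2 - 2 * p.1 * t)) * ‖sol (Bp d G p) y' t‖ₑ ^ 2 := by
        rw [← lintegral_const_mul' _ _ ENNReal.ofReal_ne_top]
        exact lintegral_congr fun y' => mul_left_comm _ _ _
    _ = _ := by
        congr 1
        rw [← lintegral_sub_left_eq_self (fun s => ENNReal.ofReal (kap w s) *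
          ∫⁻ p : ℝ × ℝ, ENNReal.ofReal (W T (x - p.2 - 2 * p.1 * t)) * ‖sol (Bp d G p) (y - s) t‖ₑ ^ 2) y]
        refine lintegral_congr fun y' => ?_
        rw [sub_sub_cancel]

/-- number of points on the packet -/
noncomputable def Np {ι : Type} (P : Finset ι) (T : ℝ) (x t : ι → ℝ) (p : ℝ × ℝ) : ℝ :=
  ∑ i ∈ P, W T (x i - p.2 - 2 * p.1 * t i)

theorem mu_eq {w : ℝ} {G : ℝ × ℝ → ℂ} (h : S2 w G) {d : ℝ} (hd : 0 ≤ d) (p : ℝ × ℝ) :
    mu d G p = ENNReal.ofReal (ms (Bp d G p)) := lint_sq_eq _ (Bp_good h hd p)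

/-- scalar bound at one packet and one shift -/
theorem schur_key {C1 C2 : ℝ} (hC1 : 0 < C1) (hC2 : 0 < C2) {ι : Type} (P : Finset ι) (x y t : ι → ℝ) {T w : ℝ}
    {G : ℝ × ℝ → ℂ} (hT : 1 ≤ T) (hw : 0 < w) (h : S2 w G) (p : ℝ × ℝ) (s : ℝ)
    (h1 : |p.1| ≤ 2 → ∑ i ∈ P, W T (x i - p.2 - 2 * p.1 * t i) * ‖sol (Bp (1 / (16 * T)) G p) (y i - s) (t i)‖ ^ 2
      ≤ C1 * (Real.sqrt T)⁻¹ * Real.sqrt (C2 / T * ∑ i ∈ P, W T (x i - p.2 - 2 * p.1 * t i)) *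
        ms (Bp (1 / (16 * T)) G p)) :
    ∑ i ∈ P, ENNReal.ofReal (W T (x i - p.2 - 2 * p.1 * t i)) *
        ‖sol (Bp (1 / (16 * T)) G p) (y i - s) (t i)‖ₑ ^ 2
      ≤ ENNReal.ofReal (C1 * Real.sqrt C2 / T) * (ENNReal.ofReal (Real.sqrt (Np P T x t p)) *
        mu (1 / (16 * T)) G p) := by
  have hT0 : 0 < T := by linarith
  set d := 1 / (16 * T) with hd
  have hd0 : 0 < d := by positivity
  have hd1 : d ≤ 1 := by
    rw [hd, div_le_one (by positivity)]; linarith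
  have hN : 0 ≤ Np P T x t p := Finset.sum_nonneg fun i _ => W_nn hT0 _
  by_cases hp : |p.1| ≤ 2
  · rw [mu_eq h hd0.le, ← ENNReal.ofReal_mul (Real.sqrt_nonneg _), ← ENNReal.ofReal_mul (by positivity)]
    have h2 : ∑ i ∈ P, ENNReal.ofReal (W T (x i - p.2 - 2 * p.1 * t i)) *
        ‖sol (Bp d G p) (y i - s) (t i)‖ₑ ^ 2
        = ENNReal.ofReal (∑ i ∈ P, W T (x i - p.2 - 2 * p.1 * t i) * ‖sol (Bp d G p) (y i - s) (t i)‖ ^ 2) := by
      rw [ENNReal.ofReal_sum_of_nonneg fun i _ => mul_nonneg (W_nn hT0 _) (by positivity)]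
      refine Finset.sum_congr rfl fun i _ => ?_
      rw [ENNReal.ofReal_mul (W_nn hT0 _), ENNReal.ofReal_pow (norm_nonneg _), ofReal_norm_eq_enorm]
    rw [h2]
    apply ENNReal.ofReal_le_ofReal
    refine (h1 hp).trans (le_of_eq ?_)
    have h3 : Real.sqrt (C2 / T * ∑ i ∈ P, W T (x i - p.2 - 2 * p.1 * t i))
        = Real.sqrt C2 * (Real.sqrt T)⁻¹ * Real.sqrt (Np P T x t p) := by
      rw [Real.sqrt_mul (by positivity), Real.sqrt_div hC2.le, div_eq_mul_inv]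
      rfl
    rw [h3]
    have h4 : (Real.sqrt T)⁻¹ * (Real.sqrt T)⁻¹ = T⁻¹ := by
      rw [← mul_inv, Real.mul_self_sqrt hT0.le]
    calc C1 * (Real.sqrt T)⁻¹ * (Real.sqrt C2 * (Real.sqrt T)⁻¹ * Real.sqrt (Np P T x t p)) * ms (Bp d G p)
        = C1 * Real.sqrt C2 * ((Real.sqrt T)⁻¹ * (Real.sqrt T)⁻¹) * (Real.sqrt (Np P T x t p) * ms (Bp d G p)) := by
          ring
      _ = _ := by rw [h4, div_eq_mul_inv]
  · have hz : ∀ ζ, Bp d G p ζ = 0 := by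
      intro ζ
      apply Bp_zero
      intro ξ ζ' hne
      have h1 := h.s0 _ hne
      simp only at h1
      have h2 : |p.1| ≤ |ξ - p.1| + |ξ| := by
        calc |p.1| = |ξ - (ξ - p.1)| := by congr 1; ring
          _ ≤ |ξ| + |ξ - p.1| := abs_sub _ _
          _ = _ := add_comm _ _
      push Not at hp
      linarith
    have hz2 : ∀ i, sol (Bp d G p) (y i - s) (t i) = 0 := by
      intro i
      unfold sol
      simp [hz]
    simp [hz2]

theorem summand_meas {w : ℝ} {G : ℝ × ℝ → ℂ} (h : S2 w G) (d T x y t : ℝ) :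
    Measurable (fun q : ℝ × (ℝ × ℝ) => ENNReal.ofReal (W T (x - q.2.2 - 2 * q.2.1 * t)) *
        ‖sol (Bp d G q.2) (y - q.1) t‖ₑ ^ 2) := by
  have hWm : Measurable (W T) := (W_cont T).measurable
  have h0 : Measurable (fun q : ℝ × (ℝ × ℝ) => x - q.2.2 - 2 * q.2.1 * t) := by fun_prop
  have h1 : Measurable (fun q : ℝ × (ℝ × ℝ) => ((q.2, y - q.1) : (ℝ × ℝ) × ℝ)) :=
    measurable_snd.prodMk (by fun_prop)
  have h2 := (solB_meas h d t).comp h1
  have h3 := (h2.enorm).pow_const 2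
  have h4 := (hWm.comp h0).ennreal_ofReal
  exact h4.mul h3

/-- Tonelli part of the Schur inequality -/
theorem schur_ton {ι : Type} (P : Finset ι) (x y t : ι → ℝ) {T w : ℝ}
    {G : ℝ × ℝ → ℂ} (hT : 0 < T) (hw : 0 < w) (h : S2 w G) (ht : ∀ i ∈ P, |t i| ≤ T ^ 2) (H : ℝ × ℝ → ℝ≥0∞)
    (key : ∀ (p : ℝ × ℝ) (s : ℝ), ∑ i ∈ P, ENNReal.ofReal (W T (x i - p.2 - 2 * p.1 * t i)) *
        ‖sol (Bp (1 / (16 * T)) G p) (y i - s) (t i)‖ₑ ^ 2 ≤ H p) :
    ∑ i ∈ P, EL T w G (x i) (y i) (t i) ≤ ENNReal.ofReal (1152 * T * Real.pi) * ∫⁻ p, H p := by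
  set d := 1 / (16 * T) with hd
  have hm1 : ∀ i, Measurable (fun q : ℝ × (ℝ × ℝ) => ENNReal.ofReal (W T (x i - q.2.2 - 2 * q.2.1 * t i)) *
        ‖sol (Bp d G q.2) (y i - q.1) (t i)‖ₑ ^ 2) := fun i => summand_meas h d T (x i) (y i) (t i)
  have hm2 : ∀ i, Measurable (fun s : ℝ => ∫⁻ p : ℝ × ℝ, ENNReal.ofReal (W T (x i - p.2 - 2 * p.1 * t i)) *
        ‖sol (Bp d G p) (y i - s) (t i)‖ₑ ^ 2) := fun i => (hm1 i).lintegral_prod_right'
  have hkm : Measurable (fun s => ENNReal.ofReal (kap w s)) := (kap_cont hw).measurable.ennreal_ofReal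
  calc ∑ i ∈ P, EL T w G (x i) (y i) (t i)
      ≤ ∑ i ∈ P, ENNReal.ofReal (1152 * T) * ∫⁻ s, ENNReal.ofReal (kap w s) *
        ∫⁻ p : ℝ × ℝ, ENNReal.ofReal (W T (x i - p.2 - 2 * p.1 * t i)) *
        ‖sol (Bp d G p) (y i - s) (t i)‖ₑ ^ 2 :=
        Finset.sum_le_sum fun i hi => EL_le h hw hT (ht i hi) (x i) (y i)
    _ = ENNReal.ofReal (1152 * T) * ∫⁻ s, ENNReal.ofReal (kap w s) *
        ∑ i ∈ P, ∫⁻ p : ℝ × ℝ, ENNReal.ofReal (W T (x i - p.2 - 2 * p.1 * t i)) *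
        ‖sol (Bp d G p) (y i - s) (t i)‖ₑ ^ 2 := by
        rw [← Finset.mul_sum, ← lintegral_finset_sum]
        · congr 1
          refine lintegral_congr fun s => ?_
          rw [Finset.mul_sum]
        · exact fun i _ => hkm.mul (hm2 i)
    _ = ENNReal.ofReal (1152 * T) * ∫⁻ s, ENNReal.ofReal (kap w s) *
        ∫⁻ p : ℝ × ℝ, ∑ i ∈ P, ENNReal.ofReal (W T (x i - p.2 - 2 * p.1 * t i)) *
        ‖sol (Bp d G p) (y i - s) (t i)‖ₑ ^ 2 := by
        congr 1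
        refine lintegral_congr fun s => ?_
        congr 1
        rw [lintegral_finset_sum]
        exact fun i _ => slice_l (hm1 i) s
    _ ≤ ENNReal.ofReal (1152 * T) * ∫⁻ s, ENNReal.ofReal (kap w s) * ∫⁻ p : ℝ × ℝ, H p := by
        refine mul_le_mul_right ?_ _
        refine lintegral_mono fun s => mul_le_mul_right ?_ _
        exact lintegral_mono fun p => key p s
    _ = ENNReal.ofReal (1152 * T) * (∫⁻ s, ENNReal.ofReal (kap w s)) * ∫⁻ p : ℝ × ℝ, H p := by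
        rw [lintegral_mul_const _ hkm, mul_assoc]
    _ ≤ ENNReal.ofReal (1152 * T) * ENNReal.ofReal Real.pi * ∫⁻ p : ℝ × ℝ, H p :=
        mul_le_mul_left (mul_le_mul_right (lint_kap hw) _) _
    _ = _ := by rw [← ENNReal.ofReal_mul (by positivity)]

/-- Schur inequality -/
theorem schur (hTT : StTT) (hCO : StCO) : ∃ C : ℝ, 0 < C ∧ ∀ (ι : Type) (P : Finset ι) (x y t : ι → ℝ) (T w : ℝ)
    (G : ℝ × ℝ → ℂ), 1 ≤ T → 0 < w → T * w ^ 2 ≤ 1 → S2 w G → (∀ i ∈ P, |t i| ≤ T ^ 2) → Inj P T x t →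
    ∑ i ∈ P, EL T w G (x i) (y i) (t i)
      ≤ ENNReal.ofReal C * ∫⁻ p, ENNReal.ofReal (Real.sqrt (Np P T x t p)) * mu (1 / (16 * T)) G p := by
  obtain ⟨C1, hC1, TT⟩ := hTT
  obtain ⟨C2, hC2, CO⟩ := hCO
  refine ⟨1152 * Real.pi * (C1 * Real.sqrt C2), by positivity, ?_⟩
  intro ι P x y t T w G hT hw hTw h ht hinj
  have hT0 : 0 < T := by linarith
  have hd0 : 0 < 1 / (16 * T) := by positivity
  have key := fun (p : ℝ × ℝ) (s : ℝ) => schur_key hC1 hC2 P x y t hT hw h p s (fun hp =>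
    TT ι P T w (C2 / T) (Bp (1 / (16 * T)) G p) (fun i => W T (x i - p.2 - 2 * p.1 * t i))
        (fun i => y i - s) t hT0 hw hTw (Bp_good h hd0.le p) (Bp_supp h _ p) (fun i _ => W_nn hT0 _)
        (by positivity) (fun k => CO ι P x t T p.1 p.2 hT0 hp hinj k))
  refine (schur_ton P x y t hT0 hw h ht _ key).trans (le_of_eq ?_)
  rw [lintegral_const_mul' _ _ ENNReal.ofReal_ne_top, ← mul_assoc, ← ENNReal.ofReal_mul (by positivity)]
  congr 2
  field_simp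

end Vale.Agent.P076.H21
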