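import Vale.Agent.P076.H21.LowD

/-! # P076, H21: LOW1 and LOW2 in terms of the packet energies -/

set_option linter.all false

open MeasureTheory Complex
open Vale.Agent.P076.X
open scoped ENNReal

namespace Vale.Agent.P076.H21

theorem W_le_inv {T : ℝ} (hT : 0 < T) (u : ℝ) : W T u ≤ 1 / T := by
  have hpi := Real.pi_gt_three
  unfold W
  have h1 : ((1 + u ^ 2 / T ^ 2) ^ 2)⁻¹ ≤ 1 := by
    apply inv_le_one_of_one_le₀
    have : 0 ≤ u ^ 2 / T ^ 2 := by positivity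
    nlinarith
  have h2 : 2 / (Real.pi * T) ≤ 1 / T := by
    rw [div_le_div_iff₀ (by positivity) hT]
    nlinarith
  calc 2 / (Real.pi * T) * ((1 + u ^ 2 / T ^ 2) ^ 2)⁻¹ ≤ 1 / T * 1 :=
        mul_le_mul h2 h1 (by positivity) (by positivity)
    _ = _ := mul_one _

/-- the number of points on a packet -/
theorem Np_le {C : ℝ} (hC : 0 < C) {ι : Type} (P : Finset ι) (x t : ι → ℝ) {T R : ℝ} (hT : 0 < T) (hTR : T ≤ R)
    (p : ℝ × ℝ) (h0 : ∀ i ∈ P, 0 ≤ t i) (hR : ∀ i ∈ P, t i ≤ R)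
    (hco : ∀ k : ℤ, ∑ i ∈ P.filter (fun i => ⌊t i / T⌋ = k), W T (x i - p.2 - 2 * p.1 * t i) ≤ C / T) :
    Np P T x t p ≤ 2 * C * R / T ^ 2 := by
  unfold Np
  have h1 : ∀ i ∈ P, ⌊t i / T⌋ ∈ Finset.Icc 0 ⌊R / T⌋ := by
    intro i hi
    rw [Finset.mem_Icc]
    exact ⟨Int.floor_nonneg.mpr (div_nonneg (h0 i hi) hT.le),
      Int.floor_le_floor (div_le_div_of_nonneg_right (hR i hi) hT.le)⟩
  rw [← Finset.sum_fiberwise_of_maps_to h1]
  calc ∑ k ∈ Finset.Icc 0 ⌊R / T⌋, ∑ i ∈ P.filter (fun i => ⌊t i / T⌋ = k), W T (x i - p.2 - 2 * p.1 * t i)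
      ≤ ∑ k ∈ Finset.Icc 0 ⌊R / T⌋, C / T := Finset.sum_le_sum fun k _ => hco k
    _ = ((⌊R / T⌋ + 1 : ℤ) : ℝ) * (C / T) := by
        rw [Finset.sum_const, nsmul_eq_mul, Int.card_Icc]
        congr 1
        have h2 : (0 : ℤ) ≤ ⌊R / T⌋ := Int.floor_nonneg.mpr (div_nonneg (by linarith) hT.le)
        have h3 : (0 : ℤ) ≤ ⌊R / T⌋ + 1 - 0 := by linarith
        have h4 : (((⌊R / T⌋ + 1 - 0).toNat : ℤ) : ℝ) = ((⌊R / T⌋ + 1 - 0 : ℤ) : ℝ) := by
          rw [Int.toNat_of_nonneg h3]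
        rw [← Int.cast_natCast, h4]
        simp
    _ ≤ (2 * (R / T)) * (C / T) := by
        refine mul_le_mul_of_nonneg_right ?_ (by positivity)
        push_cast
        have h2 := Int.floor_le (R / T)
        have h3 : 1 ≤ R / T := by rw [le_div_iff₀ hT]; linarith
        linarith
    _ = _ := by ring

theorem mu_zero_of {G : ℝ × ℝ → ℂ} {d : ℝ} {p : ℝ × ℝ}
    (h : ∀ ξ ζ, G (ξ, ζ) ≠ 0 → d < |ξ - p.1|) : mu d G p = 0 := by
  unfold mu
  have : ∀ ζ, Bp d G p ζ = 0 := Bp_zero h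
  simp [this]

theorem abs_le_two_of_mu {w T : ℝ} {G : ℝ × ℝ → ℂ} (h : S2 w G) (hT : 1 ≤ T) {p : ℝ × ℝ}
    (hne : mu (1 / (16 * T)) G p ≠ 0) : |p.1| ≤ 2 := by
  by_contra hp
  apply hne
  apply mu_zero_of
  intro ξ ζ' hne'
  have hd1 : 1 / (16 * T) < 1 := by
    rw [div_lt_one (by positivity)]; linarith
  have h1 := h.s0 _ hne'
  simp only at h1
  have h2 : |p.1| ≤ |ξ - p.1| + |ξ| := by
    calc |p.1| = |ξ - (ξ - p.1)| := by congr 1; ring
      _ ≤ |ξ| + |ξ - p.1| := abs_sub _ _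
      _ = _ := add_comm _ _
  push Not at hp
  linarith

/-- LOW1 on the packet side -/
theorem low1' (hTT : StTT) (hCO : StCO) : ∃ C : ℝ, 0 < C ∧ ∀ (ι : Type) (P : Finset ι) (x y t : ι → ℝ) (R T w : ℝ)
    (G : ℝ × ℝ → ℂ), 1 ≤ T → T ≤ R → R ≤ T ^ 2 → 0 < w → T * w ^ 2 ≤ 1 → S2 w G → (∀ i ∈ P, 0 ≤ t i) →
    (∀ i ∈ P, t i ≤ R) → Inj P T x t →
    ∑ i ∈ P, EL T w G (x i) (y i) (t i)
      ≤ ENNReal.ofReal (C * Real.sqrt R / T ^ 2) * ∫⁻ q, ‖G q‖ₑ ^ 2 := by
  obtain ⟨C1, hC1, S⟩ := schur hTT hCO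
  obtain ⟨C2, hC2, CO⟩ := hCO
  refine ⟨C1 * Real.sqrt (2 * C2) / 8, by positivity, ?_⟩
  intro ι P x y t R T w G hT hTR hRT hw hTw h h0 hR hinj
  have hT0 : 0 < T := by linarith
  have hR0 : 0 ≤ R := by linarith
  have hd0 : 0 ≤ 1 / (16 * T) := by positivity
  refine (S ι P x y t T w G hT hw hTw h (fun i hi => by
    rw [abs_of_nonneg (h0 i hi)]; exact (hR i hi).trans hRT) hinj).trans ?_
  have h1 : ∀ p, ENNReal.ofReal (Real.sqrt (Np P T x t p)) * mu (1 / (16 * T)) G p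
      ≤ ENNReal.ofReal (Real.sqrt (2 * C2) * Real.sqrt R / T) * mu (1 / (16 * T)) G p := by
    intro p
    by_cases hmu : mu (1 / (16 * T)) G p = 0
    · rw [hmu, mul_zero, mul_zero]
    · have hp := abs_le_two_of_mu h hT hmu
      have h2 := Np_le hC2 P x t hT0 hTR p h0 hR (fun k => CO ι P x t T p.1 p.2 hT0 hp hinj k)
      refine mul_le_mul_left (ENNReal.ofReal_le_ofReal ?_) _
      refine (Real.sqrt_le_sqrt h2).trans (le_of_eq ?_)
      rw [Real.sqrt_div (by positivity), Real.sqrt_mul (by positivity), Real.sqrt_sq hT0.le]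
  calc ENNReal.ofReal C1 * ∫⁻ p, ENNReal.ofReal (Real.sqrt (Np P T x t p)) * mu (1 / (16 * T)) G p
      ≤ ENNReal.ofReal C1 * ∫⁻ p, ENNReal.ofReal (Real.sqrt (2 * C2) * Real.sqrt R / T) * mu (1 / (16 * T)) G p :=
        mul_le_mul_right (lintegral_mono h1) _
    _ = ENNReal.ofReal (C1 * (Real.sqrt (2 * C2) * Real.sqrt R / T) * (2 * (1 / (16 * T)))) * ∫⁻ q, ‖G q‖ₑ ^ 2 := by
        rw [lintegral_const_mul' _ _ ENNReal.ofReal_ne_top, mass_mu h hd0, ← mul_assoc, ← mul_assoc,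
          ← ENNReal.ofReal_mul hC1.le, ← ENNReal.ofReal_mul (by positivity)]
    _ = _ := by
        congr 2
        field_simp
        ring

/-- energy of the packets through a point -/
noncomputable def mz (T : ℝ) (G : ℝ × ℝ → ℂ) (x t : ℝ) : ℝ≥0∞ :=
  ∫⁻ p : ℝ × ℝ, ENNReal.ofReal (W T (x - p.2 - 2 * p.1 * t)) * mu (1 / (16 * T)) G p

theorem Wp_meas (T x t : ℝ) : Measurable (fun p : ℝ × ℝ => ENNReal.ofReal (W T (x - p.2 - 2 * p.1 * t))) := by
  have hWm : Measurable (W T) := (W_cont T).measurable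
  have h0 : Measurable (fun p : ℝ × ℝ => x - p.2 - 2 * p.1 * t) := by fun_prop
  exact (hWm.comp h0).ennreal_ofReal

/-- Schur inequality after AM-GM -/
theorem schur2 (hTT : StTT) (hCO : StCO) : ∃ C : ℝ, 0 < C ∧ ∀ (ι : Type) (P : Finset ι) (x y t : ι → ℝ) (T w : ℝ)
    (G : ℝ × ℝ → ℂ), 1 ≤ T → 0 < w → T * w ^ 2 ≤ 1 → S2 w G → (∀ i ∈ P, |t i| ≤ T ^ 2) → Inj P T x t →
    ∀ r : ℝ, 0 < r → ∑ i ∈ P, EL T w G (x i) (y i) (t i)
      ≤ ENNReal.ofReal C * (ENNReal.ofReal r * ∑ i ∈ P, mz T G (x i) (t i) +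
        ENNReal.ofReal (1 / (r * T)) * ∫⁻ q, ‖G q‖ₑ ^ 2) := by
  obtain ⟨C1, hC1, S⟩ := schur hTT hCO
  refine ⟨C1, hC1, ?_⟩
  intro ι P x y t T w G hT hw hTw h ht hinj r hr
  have hT0 : 0 < T := by linarith
  have hd0 : 0 ≤ 1 / (16 * T) := by positivity
  refine (S ι P x y t T w G hT hw hTw h ht hinj).trans (mul_le_mul_right ?_ _)
  have hmm := mu_meas h (1 / (16 * T))
  have h1 : ∀ p, ENNReal.ofReal (Real.sqrt (Np P T x t p)) * mu (1 / (16 * T)) G p
      ≤ ENNReal.ofReal r * ∑ i ∈ P, (ENNReal.ofReal (W T (x i - p.2 - 2 * p.1 * t i)) * mu (1 / (16 * T)) G p)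
        + ENNReal.ofReal (1 / r) * mu (1 / (16 * T)) G p := by
    intro p
    have hN : 0 ≤ Np P T x t p := Finset.sum_nonneg fun i _ => W_nn hT0 _
    have h2 : Real.sqrt (Np P T x t p) ≤ r * Np P T x t p + 1 / r := by
      have h3 := Real.sq_sqrt hN
      set u := Real.sqrt (Np P T x t p)
      have hu : 0 ≤ u := Real.sqrt_nonneg _
      rw [← h3]
      have h4 : r * u ^ 2 + 1 / r - u = (1 / r) * ((r * u - 1 / 2) ^ 2 + 3 / 4) := by
        field_simp
        ring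
      have h5 : 0 ≤ (1 / r) * ((r * u - 1 / 2) ^ 2 + 3 / 4) := by positivity
      linarith
    have h6 : ENNReal.ofReal (Np P T x t p) = ∑ i ∈ P, ENNReal.ofReal (W T (x i - p.2 - 2 * p.1 * t i)) := by
      unfold Np
      rw [ENNReal.ofReal_sum_of_nonneg fun i _ => W_nn hT0 _]
    calc ENNReal.ofReal (Real.sqrt (Np P T x t p)) * mu (1 / (16 * T)) G p
        ≤ ENNReal.ofReal (r * Np P T x t p + 1 / r) * mu (1 / (16 * T)) G p :=
          mul_le_mul_left (ENNReal.ofReal_le_ofReal h2) _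
      _ = _ := by
          rw [ENNReal.ofReal_add (by positivity) (by positivity), ENNReal.ofReal_mul hr.le, add_mul, h6,
            mul_assoc, Finset.sum_mul]
  calc ∫⁻ p, ENNReal.ofReal (Real.sqrt (Np P T x t p)) * mu (1 / (16 * T)) G p
      ≤ ∫⁻ p : ℝ × ℝ, (ENNReal.ofReal r * ∑ i ∈ P, (ENNReal.ofReal (W T (x i - p.2 - 2 * p.1 * t i)) *
          mu (1 / (16 * T)) G p) + ENNReal.ofReal (1 / r) * mu (1 / (16 * T)) G p) := lintegral_mono h1
    _ = ENNReal.ofReal r * ∑ i ∈ P, mz T G (x i) (t i) + ENNReal.ofReal (1 / r) *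
          (ENNReal.ofReal (2 * (1 / (16 * T))) * ∫⁻ q, ‖G q‖ₑ ^ 2) := by
        rw [lintegral_add_right _ (hmm.const_mul _), lintegral_const_mul' _ _ ENNReal.ofReal_ne_top,
          lintegral_const_mul' _ _ ENNReal.ofReal_ne_top, mass_mu h hd0, lintegral_finset_sum]
        · rfl
        · exact fun i _ => (Wp_meas T (x i) (t i)).mul hmm
    _ ≤ _ := by
        refine add_le_add le_rfl ?_
        rw [← mul_assoc, ← ENNReal.ofReal_mul (by positivity)]
        refine mul_le_mul_left (ENNReal.ofReal_le_ofReal ?_) _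
        rw [div_mul_eq_mul_div, one_mul, div_le_div_iff₀ hr (by positivity)]
        have : 2 * (1 / (16 * T)) * (r * T) = r / 8 := by field_simp; norm_num
        rw [this]
        linarith

/-- transversality -/
theorem trans (hTR : StTR) (hCO : StCO) : ∃ C : ℝ, 0 < C ∧ ∀ (ι : Type) (P : Finset ι) (x t : ι → ℝ) (T w a ν : ℝ)
    (G₁ G₂ : ℝ × ℝ → ℂ), 1 ≤ T → 0 < ν → S2 w G₁ → S2 w G₂ →
    (∀ p, G₁ p ≠ 0 → p.1 ≤ a) → (∀ p, G₂ p ≠ 0 → a + ν ≤ p.1) → (∀ i ∈ P, 0 ≤ t i) → (∀ i ∈ P, t i ≤ T ^ 2) →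
    Inj P T x t → ∑ i ∈ P, mz T G₁ (x i) (t i) * mz T G₂ (x i) (t i) ≤
      ENNReal.ofReal (C / ν / T ^ 4) * ((∫⁻ q, ‖G₁ q‖ₑ ^ 2) * ∫⁻ q, ‖G₂ q‖ₑ ^ 2) := by
  obtain ⟨C1, hC1, TR⟩ := hTR
  obtain ⟨C2, hC2, CO⟩ := hCO
  refine ⟨2 * C1 + C2, by positivity, ?_⟩
  intro ι P x t T w a ν G₁ G₂ hT hν h1 h2 hs1 hs2 h0 hR hinj
  have hT0 : 0 < T := by linarith
  set d := 1 / (16 * T) with hd
  have hd0 : 0 ≤ d := by positivity
  have hTT : T ≤ T ^ 2 := by nlinarith
  -- pointwise bound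
  have key : ∀ p q, (∑ i ∈ P, ENNReal.ofReal (W T (x i - p.2 - 2 * p.1 * t i)) *
      ENNReal.ofReal (W T (x i - q.2 - 2 * q.1 * t i))) * (mu d G₁ p * mu d G₂ q)
      ≤ ENNReal.ofReal ((2 * C1 + C2) / ν / T ^ 2) * (mu d G₁ p * mu d G₂ q) := by
    intro p q
    by_cases hp0 : mu d G₁ p = 0
    · simp [hp0]
    by_cases hq0 : mu d G₂ q = 0
    · simp [hq0]
    have hp := abs_le_two_of_mu h1 hT hp0
    have hq := abs_le_two_of_mu h2 hT hq0
    refine mul_le_mul_left ?_ _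
    have e1 : ∑ i ∈ P, ENNReal.ofReal (W T (x i - p.2 - 2 * p.1 * t i)) *
        ENNReal.ofReal (W T (x i - q.2 - 2 * q.1 * t i))
        = ENNReal.ofReal (∑ i ∈ P, W T (x i - p.2 - 2 * p.1 * t i) * W T (x i - q.2 - 2 * q.1 * t i)) := by
      rw [ENNReal.ofReal_sum_of_nonneg fun i _ => mul_nonneg (W_nn hT0 _) (W_nn hT0 _)]
      exact Finset.sum_congr rfl fun i _ => (ENNReal.ofReal_mul (W_nn hT0 _)).symm
    rw [e1]
    apply ENNReal.ofReal_le_ofReal
    -- frequencies of the packets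
    have hpa : p.1 ≤ a + d := by
      by_contra hc
      push Not at hc
      apply hp0
      apply mu_zero_of
      intro ξ ζ hne
      have := hs1 _ hne
      simp only at this
      rw [abs_sub_comm, lt_abs]
      left; linarith
    have hqa : a + ν - d ≤ q.1 := by
      by_contra hc
      push Not at hc
      apply hq0
      apply mu_zero_of
      intro ξ ζ hne
      have := hs2 _ hne
      simp only at this
      rw [lt_abs]
      left; linarith
    by_cases hTν : 1 / (4 * ν) ≤ T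
    · have hd2 : 2 * d ≤ ν / 2 := by
        have : 2 * d = 1 / (8 * T) := by rw [hd]; field_simp; norm_num
        rw [this, div_le_div_iff₀ (by positivity) (by norm_num)]
        rw [div_le_iff₀ (by positivity)] at hTν
        nlinarith
      have hdiff : ν / 2 ≤ |p.1 - q.1| := by
        rw [abs_sub_comm, le_abs]
        left; linarith
      have hne : p.1 ≠ q.1 := by
        intro heq
        rw [heq, sub_self, abs_zero] at hdiff
        linarith
      refine (TR ι P x t T p.1 p.2 q.1 q.2 hT0 hp hq hne hinj).trans ?_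
      have h3 : C1 / (T ^ 2 * |p.1 - q.1|) ≤ C1 / (T ^ 2 * (ν / 2)) := by
        apply div_le_div_of_nonneg_left hC1.le (by positivity)
        exact mul_le_mul_of_nonneg_left hdiff (by positivity)
      refine h3.trans ?_
      have h4 : C1 / (T ^ 2 * (ν / 2)) = 2 * C1 / ν / T ^ 2 := by field_simp
      rw [h4]
      apply div_le_div_of_nonneg_right _ (by positivity)
      apply div_le_div_of_nonneg_right _ hν.le
      linarith
    · push Not at hTν
      have h3 := Np_le hC2 P x t hT0 hTT p h0 hR (fun k => CO ι P x t T p.1 p.2 hT0 hp hinj k)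
      have h4 : 2 * C2 * T ^ 2 / T ^ 2 = 2 * C2 := by field_simp
      rw [h4] at h3
      calc ∑ i ∈ P, W T (x i - p.2 - 2 * p.1 * t i) * W T (x i - q.2 - 2 * q.1 * t i)
          ≤ ∑ i ∈ P, W T (x i - p.2 - 2 * p.1 * t i) * (1 / T) :=
            Finset.sum_le_sum fun i _ => mul_le_mul_of_nonneg_left (W_le_inv hT0 _) (W_nn hT0 _)
        _ = Np P T x t p * (1 / T) := by rw [← Finset.sum_mul]; rfl
        _ ≤ 2 * C2 * (1 / T) := mul_le_mul_of_nonneg_right h3 (by positivity)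
        _ ≤ _ := by
            rw [div_div, le_div_iff₀ (by positivity)]
            have h5 : 2 * C2 * (1 / T) * (ν * T ^ 2) = 2 * C2 * (ν * T) := by field_simp
            rw [h5]
            rw [lt_div_iff₀ (by positivity)] at hTν
            have : ν * T ≤ 1 / 4 := by nlinarith
            nlinarith
  have hmm1 := mu_meas h1 d
  have hmm2 := mu_meas h2 d
  have e2 : ∀ i, mz T G₁ (x i) (t i) * mz T G₂ (x i) (t i) = ∫⁻ p : ℝ × ℝ, ∫⁻ q : ℝ × ℝ,
      (ENNReal.ofReal (W T (x i - p.2 - 2 * p.1 * t i)) * ENNReal.ofReal (W T (x i - q.2 - 2 * q.1 * t i))) *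
        (mu d G₁ p * mu d G₂ q) := by
    intro i
    have hw1 : Measurable (fun p : ℝ × ℝ => ENNReal.ofReal (W T (x i - p.2 - 2 * p.1 * t i)) * mu d G₁ p) :=
      (Wp_meas T (x i) (t i)).mul hmm1
    have hw2 : Measurable (fun p : ℝ × ℝ => ENNReal.ofReal (W T (x i - p.2 - 2 * p.1 * t i)) * mu d G₂ p) :=
      (Wp_meas T (x i) (t i)).mul hmm2
    unfold mz
    rw [← hd, ← lintegral_mul_const _ hw1]
    refine lintegral_congr fun p => ?_
    rw [← lintegral_const_mul _ hw2]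
    refine lintegral_congr fun q => ?_
    ring
  have hmeas : ∀ i, Measurable (fun z : (ℝ × ℝ) × (ℝ × ℝ) =>
      (ENNReal.ofReal (W T (x i - z.1.2 - 2 * z.1.1 * t i)) * ENNReal.ofReal (W T (x i - z.2.2 - 2 * z.2.1 * t i))) *
        (mu d G₁ z.1 * mu d G₂ z.2)) := fun i =>
    (((Wp_meas T (x i) (t i)).comp measurable_fst).mul ((Wp_meas T (x i) (t i)).comp measurable_snd)).mul
      ((hmm1.comp measurable_fst).mul (hmm2.comp measurable_snd))
  calc ∑ i ∈ P, mz T G₁ (x i) (t i) * mz T G₂ (x i) (t i)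
      = ∫⁻ p : ℝ × ℝ, ∫⁻ q : ℝ × ℝ, ∑ i ∈ P,
      (ENNReal.ofReal (W T (x i - p.2 - 2 * p.1 * t i)) * ENNReal.ofReal (W T (x i - q.2 - 2 * q.1 * t i))) *
        (mu d G₁ p * mu d G₂ q) := by
        simp_rw [e2]
        rw [← lintegral_finset_sum _ fun i _ => (hmeas i).lintegral_prod_right']
        refine lintegral_congr fun p => ?_
        rw [← lintegral_finset_sum _ fun i _ => slice_l (hmeas i) p]
    _ ≤ ∫⁻ p : ℝ × ℝ, ∫⁻ q : ℝ × ℝ, ENNReal.ofReal ((2 * C1 + C2) / ν / T ^ 2) * (mu d G₁ p * mu d G₂ q) := by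
        refine lintegral_mono fun p => lintegral_mono fun q => ?_
        simp only
        rw [← Finset.sum_mul]
        exact key p q
    _ = ENNReal.ofReal ((2 * C1 + C2) / ν / T ^ 2) * ((∫⁻ p, mu d G₁ p) * ∫⁻ q, mu d G₂ q) := by
        rw [← lintegral_mul_const _ hmm1, ← lintegral_const_mul' _ _ ENNReal.ofReal_ne_top]
        refine lintegral_congr fun p => ?_
        rw [lintegral_const_mul' _ _ ENNReal.ofReal_ne_top, lintegral_const_mul _ hmm2]
    _ ≤ _ := by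
        rw [mass_mu h1 hd0, mass_mu h2 hd0]
        have e3 : ∀ A B : ℝ≥0∞, ENNReal.ofReal (2 * d) * A * (ENNReal.ofReal (2 * d) * B)
            = ENNReal.ofReal (2 * d * (2 * d)) * (A * B) := by
          intro A B
          have e0 : ENNReal.ofReal (2 * d * (2 * d)) = ENNReal.ofReal (2 * d) * ENNReal.ofReal (2 * d) :=
            ENNReal.ofReal_mul (by positivity)
          rw [e0]
          ring
        rw [e3, ← mul_assoc, ← ENNReal.ofReal_mul (by positivity)]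
        refine mul_le_mul_left (ENNReal.ofReal_le_ofReal ?_) _
        have e4 : 2 * d * (2 * d) = 1 / (64 * T ^ 2) := by rw [hd]; field_simp; norm_num
        rw [e4]
        have e5 : (2 * C1 + C2) / ν / T ^ 2 * (1 / (64 * T ^ 2)) = (2 * C1 + C2) / ν / T ^ 4 * (1 / 64) := by
          field_simp
        rw [e5]
        have : 0 ≤ (2 * C1 + C2) / ν / T ^ 4 := by positivity
        linarith

end Vale.Agent.P076.H21
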